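import Vale.Agent.P366MM.Co
import Vale.Agent.P366M.Max
import Mathlib.Analysis.Calculus.BumpFunction.Convolution

/-!
# P366SB: a function whose weak gradient vanishes is constant
-/

set_option linter.all false

open MeasureTheory Metric Filter Topology Set ContinuousLinearMap
open scoped ContDiff Convolution
open Vale.Agent.P366 Vale.Agent.P366M
open Vale.Agent.P366.Stmt (E)
open Vale.Agent.P366MM (zv repV_zv zv_zero cv_zv)

noncomputable section

namespace Vale.Agent.P366SB

variable {n : ℕ}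

theorem cstE {f : E n → ℝ} (hf : LocallyIntegrable f) {y₀ : E n} {r : ℝ} (hr : 0 < r)
    (h : ∀ ψ, Stmt.Smooth ψ → (∀ y ∉ closedBall y₀ (2 * r), ψ y = 0) → ∀ i,
      ∫ y, f y * Stmt.pd i ψ y = 0) : ∃ c, ∀ᵐ y, y ∈ ball y₀ r → f y = c := by
  have hp : ∀ j : ℕ, 0 < r * (1 / ((j : ℝ) + 1)) := fun j => by positivity
  let φ : ℕ → ContDiffBump (0 : E n) := fun j =>
    ⟨r * (1 / ((j : ℝ) + 1)) / 2, r * (1 / ((j : ℝ) + 1)), half_pos (hp j), half_lt_self (hp j)⟩
  have h1 := ContDiffBump.ae_convolution_tendsto_right_of_locallyIntegrable (φ := φ) (K := 2)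
    (l := atTop) (by simpa only [mul_zero] using tendsto_one_div_add_atTop_nhds_zero_nat.const_mul r)
    (.of_forall fun j => le_of_eq (by simp only [φ]; ring)) hf
  have h2 : ∀ j, ∀ x ∈ ball y₀ r,
      HasFDerivAt ((φ j).normed volume ⋆[lsmul ℝ ℝ, volume] f) (0 : E n →L[ℝ] ℝ) x := fun j x hx => by
    have c := (φ j).hasCompactSupport_normed (μ := volume)
    have s : Stmt.Smooth ((φ j).normed volume) := (φ j).contDiff_normed
    have d := c.hasFDerivAt_convolution_right (lsmul ℝ ℝ).flip hf (s.of_le one_le_oo) x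
    rw [convolution_flip] at d
    refine d.congr_fderiv (ContinuousLinearMap.ext fun w => ?_)
    rw [convolution_precompR_apply _ hf (c.fderiv ℝ) (s.continuous_fderiv (by simp)),
      convolution_def]
    have t : Stmt.Smooth fun y => (φ j).normed volume (x - y) := s.comp (contDiff_const.sub contDiff_id)
    have e : ∀ y, fderiv ℝ ((φ j).normed volume) (x - y) w =
        -∑ i, w i * Stmt.pd i (fun y => (φ j).normed volume (x - y)) y := fun y => by
      have a : HasFDerivAt (fun y => (φ j).normed volume (x - y)) _ y :=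
        (s.diff (x - y)).hasFDerivAt.comp y ((hasFDerivAt_id y).const_sub x)
      rw [← P366Z.fderiv_eq_sum (t.diff y), a.fderiv]
      simp
    have z : ∀ y ∉ closedBall y₀ (2 * r), (φ j).normed volume (x - y) = 0 := fun y hy => by
      by_contra k
      have a : ‖x - y‖ < r * (1 / ((j : ℝ) + 1)) :=
        mem_ball_zero_iff.1 ((φ j).support_normed_eq.subset k)
      have b : r * (1 / ((j : ℝ) + 1)) ≤ r := mul_le_of_le_one_right hr.le
        ((div_le_one (by positivity)).2 (by simp))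
      have := dist_triangle_left y y₀ x
      rw [dist_eq_norm x y] at this
      exact hy (mem_closedBall.2 (by linarith [mem_ball.1 hx]))
    have i1 : ∀ i, Integrable fun y => w i * (f y *
        Stmt.pd i (fun y => (φ j).normed volume (x - y)) y) := fun i => by
      refine Integrable.const_mul ?_ _
      simpa only [smul_eq_mul, mul_comm] using hf.integrable_smul_left_of_hasCompactSupport
        (t.pd i).cont (HasCompactSupport.intro (isCompact_closedBall y₀ (2 * r)) fun y hy => by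
          rw [P366Z.pd_congr (Eventually.mono (isClosed_closedBall.isOpen_compl.mem_nhds hy) z),
            P366Z.pd_const])
    simp only [flip_apply, lsmul_apply, smul_eq_mul, e, neg_mul, integral_neg]
    simp only [Finset.sum_mul, mul_assoc, mul_comm (Stmt.pd _ _ _) (f _)]
    rw [integral_finsetSum _ fun i _ => i1 i]
    simp [integral_const_mul, h _ t z]
  have h3 : ∀ j, ∀ x ∈ ball y₀ r, ((φ j).normed volume ⋆[lsmul ℝ ℝ, volume] f) x =
      ((φ j).normed volume ⋆[lsmul ℝ ℝ, volume] f) y₀ := fun j x hx =>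
    isOpen_ball.is_const_of_fderiv_eq_zero (𝕜 := ℝ) (convex_ball y₀ r).isPreconnected
      (fun z hz => (h2 j z hz).differentiableAt.differentiableWithinAt)
      (fun z hz => (h2 j z hz).fderiv) hx (mem_ball_self hr)
  refine ⟨limUnder atTop fun j => ((φ j).normed volume ⋆[lsmul ℝ ℝ, volume] f) y₀,
    h1.mono fun y hy k => ?_⟩
  simp only [h3 _ y k] at hy
  exact hy.limUnder_eq.symm

variable {M : Type} [Mfe n M] {g : Fld n M} {V : Set M} {v : M → ℝ}

theorem cst_loc (hg : Met g) (hV : IsOpen V) (hv : Measurable v) (v1 : ∀ x, |v x| ≤ 1)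
    (h : ∀ X, CV ∞ X → ∀ K, IsCompact K → K ⊆ V → (∀ x ∉ K, ∀ i, X i x = 0) →
      ∫ x, v x * dv g X x * dens g x = 0) {x : M} (hx : x ∈ V) :
    ∃ c, ∃ O ∈ 𝓝 x, ∀ᵐ z, z ∈ O → v z = c := by
  have he := ch_mem x
  have hg' := hg.rep he
  obtain ⟨ρ, ρ0, hρ⟩ := Metric.nhds_basis_closedBall.mem_iff.1 (tendsto_pt x (hV.mem_nhds hx))
  have m : Measurable (loc (ch x) v) := hv.comp (cont_symm he).measurable
  have hB := isCompact_closedBall (pt x) (2 * (ρ / 2))
  obtain ⟨c, hc⟩ := cstE (f := loc (ch x) v) ((memLp_top_of_bound m.aestronglyMeasurable 1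
    (.of_forall fun y => v1 _)).locallyIntegrable le_top) (y₀ := pt x) (half_pos ρ0)
    fun ψ s z i => by
      obtain ⟨Y, hY⟩ : ∃ Y : Fin n → E n → ℝ, ∀ j y, Y j y =
        (if j = i then 1 else 0) * (ψ y / P366Z.dens (rep (ch x) g) y) := ⟨_, fun _ _ => rfl⟩
      have a : ∀ y ∉ closedBall (pt x) (2 * (ρ / 2)), ∀ j, Y j y = 0 := fun y hy j => by
        rw [hY, z y hy, zero_div, mul_zero]
      have b := cv_zv he hB a fun j => funext (hY j) ▸
        contDiff_const.mul (s.div hg'.sm_dens fun y => (hg'.dens_pos y).ne')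
      have d := h _ b _ (cpt_image he hB) (by
        rintro _ ⟨y, hy, rfl⟩
        exact hρ (closedBall_subset_closedBall (by linarith) hy)) (zv_zero a)
      rw [integral_dens_chart he g fun z hz => by
        rw [Lk.dv_zero (cpt_image he hB) (zv_zero a) fun k => hz (image_sub he _ k), mul_zero]] at d
      refine Eq.trans (integral_congr_ae (.of_forall fun y => ?_)) d
      have e : ∀ j, (fun y => P366Z.dens (rep (ch x) g) y * Y j y) =
          fun y => (if j = i then 1 else 0) * ψ y := fun j => funext fun y => by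
        rw [hY, mul_left_comm, mul_div_cancel₀ _ (hg'.dens_pos y).ne']
      simp only [← dv_rep hg he (b.dv (by simp) _), repV_zv he, P366Z.dv, e, P366Z.pd_const_mul]
      rw [mul_assoc, div_mul_cancel₀ _ (hg'.dens_pos y).ne']
      simp [loc]
  refine ⟨c, _, image_nhds x (ball_mem_nhds _ (half_pos ρ0)), ?_⟩
  have mb : MeasurableSet (ball (pt x) (ρ / 2) ∩ {y | loc (ch x) v y ≠ c}) :=
    measurableSet_ball.inter (m (measurableSet_singleton c)).compl
  refine measure_mono_null (t := (ch x).symm '' (ball (pt x) (ρ / 2) ∩ {y | loc (ch x) v y ≠ c}))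
    (fun z hz => ?_) ?_
  · obtain ⟨⟨y, hy, rfl⟩, k⟩ := Classical.not_imp.1 hz
    exact ⟨y, ⟨hy, k⟩, rfl⟩
  · rw [volume_eq, vol_image bg_met he mb]
    exact setLIntegral_measure_zero _ _ (measure_mono_null (fun y hy => fun k : _ → _ =>
      hy.2 (k hy.1)) (ae_iff.1 hc))

theorem ae_uniq {a b : ℝ} {O O' : Set M} {x : M} (h : O ∈ 𝓝 x) (h' : O' ∈ 𝓝 x)
    (k : ∀ᵐ z, z ∈ O → v z = a) (k' : ∀ᵐ z, z ∈ O' → v z = b) : a = b := by
  by_contra l
  refine (Measure.measure_pos_of_mem_nhds (volume : Measure M) (inter_mem h h')).ne'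
    (measure_eq_zero_iff_ae_notMem.2 ?_)
  filter_upwards [k, k'] with z p q t using l ((p t.1).symm.trans (q t.2))

/-- **the constancy lemma** -/
theorem cst (hg : Met g) (hV : IsOpen V) (hc : IsPreconnected V) (hv : Measurable v)
    (v1 : ∀ x, |v x| ≤ 1)
    (h : ∀ X, CV ∞ X → ∀ K, IsCompact K → K ⊆ V → (∀ x ∉ K, ∀ i, X i x = 0) →
      ∫ x, v x * dv g X x * dens g x = 0) : ∃ c, ∀ᵐ x, x ∈ V → v x = c := by
  rcases V.eq_empty_or_nonempty with rfl | ⟨x₀, h₀⟩
  · exact ⟨0, by simp⟩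
  choose! c O a b using fun x (hx : x ∈ V) => cst_loc hg hV hv v1 h hx
  have e : ∀ x ∈ V, c x = c x₀ := fun x hx => hc.induction₂' (fun x y => c x = c y) (fun x hx => by
    filter_upwards [self_mem_nhdsWithin, mem_nhdsWithin_of_mem_nhds (eventually_mem_nhds_iff.2
      (a x hx))] with y k l
    exact ⟨ae_uniq l (a y k) (b x hx) (b y k), ae_uniq (a y k) l (b y k) (b x hx)⟩)
    (fun _ _ _ _ _ _ => Eq.trans) hx h₀
  refine ⟨c x₀, measure_null_of_locally_null _ fun x hx => ?_⟩
  have k := (Classical.not_imp.1 hx).1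
  exact ⟨_, inter_mem_nhdsWithin _ (a x k), measure_mono_null (fun z hz => fun l : _ → _ =>
    hz.1 fun _ => (l hz.2).trans (e x k)) (ae_iff.1 (b x k))⟩

/-- the constant is `1` if the function is `1` far out -/
theorem cst_one (hg : Met g) (hV : IsOpen V) (hc : IsPreconnected V) (hv : Measurable v)
    (v1 : ∀ x, |v x| ≤ 1)
    (h : ∀ X, CV ∞ X → ∀ K, IsCompact K → K ⊆ V → (∀ x ∉ K, ∀ i, X i x = 0) →
      ∫ x, v x * dv g X x * dens g x = 0) (hn : 0 < n) {R R' : ℝ}
    (far : ∀ x : M, R < ‖px x‖ → x ∈ V) (one : ∀ x : M, R' < ‖px x‖ → v x = 1) :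
    ∀ᵐ x, x ∈ V → v x = 1 := by
  obtain ⟨c, k⟩ := cst hg hV hc hv v1 h
  obtain ⟨x, hx⟩ : ∃ x : M, max R R' < ‖px x‖ :=
    let ⟨y, _, hy⟩ := exists_far (M := M) hn Mfe.o (max R R' + 1)
    ⟨_, (lt_add_one _).trans_le hy⟩
  rwa [ae_uniq (hV.mem_nhds (far x ((le_max_left _ _).trans_lt hx)))
    (ev_lt_px ((le_max_right _ _).trans_lt hx)) k (.of_forall one)] at k

end Vale.Agent.P366SB
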