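import Vale.Agent.P366M.Map
import Vale.Agent.P366N.Bd1

/-!
# P366SB: charts in which a function is the first coordinate
-/

open Filter Topology Set Metric Function
open scoped ContDiff
open Vale.Agent.P366 Vale.Agent.P366M

noncomputable section

namespace Vale.Agent.P366SB

variable {n : ℕ} [NeZero n] {M : Type} [Mf0 n M] {F : M → ℝ} {x : M}

/-- the local form -/
theorem bch' (hF : ∀ᶠ z in 𝓝 x, CAt ∞ F z) (h0 : F x = 0) (h1 : ∃ i, pd i F x ≠ 0) {O : Set M}
    (hO : O ∈ 𝓝 x) : ∃ e ∈ At M, x ∈ e.source ∧ e.source ⊆ O ∧ e x = 0 ∧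
      ∃ r > 0, ∀ y ∈ ball (0 : Stmt.E n) r, F (e.symm y) = y 0 := by
  obtain ⟨i, hi⟩ := h1
  obtain ⟨t, ht, tp, tx⟩ := _root_.eventually_nhds_iff.1 (ev_pt.1 hF)
  set u : Fin n → Stmt.E n → ℝ := fun k z =>
    if k = 0 then loc (ch x) F z else z (Equiv.swap 0 i k) - pt x (Equiv.swap 0 i k) with hu
  have c1 : ∀ z ∈ t, ∀ k, ContDiffAt ℝ ∞ (u k) z := fun z hz k => by
    by_cases hk : k = 0
    · simp only [hu, hk, if_true]
      exact (ht z hz).lc le_rfl (ch_mem x)
    · simp only [hu, hk, if_false]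
      exact (P366Z.contDiff_coord _).contDiffAt.sub contDiffAt_const
  have c2 : ∀ z ∈ t, ContDiffAt ℝ ∞ (fun z => (WithLp.toLp 2 fun k => u k z : Stmt.E n)) z :=
    fun z hz => contDiffAt_euclidean.2 (c1 z hz)
  have d2 := (c2 _ tx).differentiableAt (by simp)
  obtain ⟨L, hL⟩ := P366N.exists_equiv
    (fderiv ℝ (fun z => (WithLp.toLp 2 fun k => u k z : Stmt.E n)) (pt x))
    ((injective_iff_map_eq_zero _).2 fun v hv => by
      have k1 : ∀ k, ∑ j, v j * Stmt.pd j (u k) (pt x) = 0 := fun k => by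
        rw [← P366Z.fderiv_eq_sum ((c1 _ tx k).differentiableAt (by simp))]
        have := ((EuclideanSpace.proj (𝕜 := ℝ) k).hasFDerivAt.comp (pt x) d2.hasFDerivAt).fderiv
        rw [show u k = EuclideanSpace.proj (𝕜 := ℝ) k ∘
          fun z => (WithLp.toLp 2 fun k => u k z : Stmt.E n) from rfl, this,
          ContinuousLinearMap.comp_apply, hv, map_zero]
      have k2 : ∀ j ≠ i, v j = 0 := fun j hj => by
        have k3 : Equiv.swap 0 i j ≠ 0 := fun k => hj (by
          rw [← Equiv.swap_apply_self 0 i j, k, Equiv.swap_apply_left])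
        have k4 := k1 (Equiv.swap 0 i j)
        simpa only [hu, k3, if_false, Equiv.swap_apply_self, P366Z.pd_sub_const, P366Z.pd_coord,
          mul_ite, mul_one, mul_zero, Finset.sum_ite_eq', Finset.mem_univ, if_true] using k4
      have k5 := k1 0
      rw [Finset.sum_eq_single i (fun j _ hj => by rw [k2 j hj, zero_mul]) (by simp)] at k5
      simp only [hu, if_true] at k5
      ext j
      by_cases hj : j = i
      · exact hj ▸ (mul_eq_zero.1 k5).resolve_right hi
      · exact k2 j hj)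
  obtain ⟨θ, t1, -, t3, t4⟩ := P366N.locdiff tp tx c2 L (hL ▸ d2.hasFDerivAt)
  have hs : x ∈ ((ch x).trans θ).source := ⟨mem_ch x, t1⟩
  obtain ⟨c, e1, e2, e3, e4, r, hr, e5, e6⟩ :=
    exists_germ ((P366D.mx_of_At (ch_mem x)).trans t4) hs hO
  have z0 : ((ch x).trans θ) x = 0 := by
    show θ (pt x) = 0
    rw [t3]
    ext k
    by_cases hk : k = 0
    · simp [hu, hk, h0]
    · simp [hu, hk]
  rw [z0] at e4 e5 e6
  refine ⟨c, e1, e2, fun p hp => (e3 hp).1, e4, r, hr, fun y hy => ?_⟩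
  have k := θ.right_inv (e5 hy).1
  rw [t3] at k
  rw [e6 y hy, ← congrArg (fun w : Stmt.E n => w 0) k]
  simp only [hu, if_true]
  rfl

/-- **BCH** -/
theorem bch (hF : Smooth F) (h0 : F x = 0) (h1 : ∃ i, pd i F x ≠ 0) :
    ∃ e ∈ At M, x ∈ e.source ∧ e x = 0 ∧
      ∃ r > 0, ∀ y ∈ ball (0 : Stmt.E n) r, F (e.symm y) = y 0 := by
  obtain ⟨e, h2, h3, -, h4⟩ := bch' (Eventually.of_forall fun _ => CD.contDiffAt hF) h0 h1 univ_mem
  exact ⟨e, h2, h3, h4⟩

end Vale.Agent.P366SB
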