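import Vale.Agent.P366F.Goal
import Vale.Agent.P366RB.Defs

/-!
# P366SB: the slice; the statements
-/

open Filter Topology Set
open scoped ContDiff
open Vale.Agent.P366 Vale.Agent.P366M Vale.Agent.P366DV
open Vale.Agent.P366.Stmt (E len)
open Vale.Agent.T4 (stF)

noncomputable section

namespace Vale.Agent.P366SB

variable {n : ℕ} {M : Type}

/-- the interior of the domain is a slice of Schwarzschild–Tangherlini with mass `m` -/
def Slice [Mfe n M] (D : Exterior n M) (m : ℝ) : Prop := ∃ Φ : Fin (n + 1) → M → ℝ,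
  (∀ a x, 0 < D.F x → CAt ∞ (Φ a) x) ∧
  BijOn (fun x => (WithLp.toLp 2 fun i => Φ i.succ x : E n)) {x | 0 < D.F x}
    {y | 0 < len y ∧ 0 < stF m y} ∧
  ∀ e ∈ At M, ∀ y, 0 < D.F (e.symm y) → ∃ ν,
    P366N.St.SliceAt m (rep e D.g) (rep e D.K) (fun a => loc e (Φ a)) ν y

/-- static Killing initial data near `x`, in the preferred chart -/
def KidAt [Mf0 n M] (g K : Fld n M) (N : M → ℝ) (X : Fin n → M → ℝ) (x : M) : Prop :=
  ∃ a p, ∀ᶠ z in 𝓝 (pt x),
    P366RB.Kid (rep (ch x) g) (rep (ch x) K) a (loc (ch x) N) (repV (ch x) X) p z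

/-- **S3B**: the time function and the second fundamental form -/
def S3B : Prop := ∀ (n : ℕ) (M : Type) [Mfe n M] (D : Exterior n M) (N V : M → ℝ)
  (X : Fin n → M → ℝ) (h : Fld n M) (m : ℝ) (y : M → E n), 3 ≤ n → 0 < m →
  (∀ x, 0 < D.F x → KidAt D.g D.K N X x ∧
    V x ^ 2 = N x ^ 2 - ∑ i, ∑ j, D.g x i j * X i x * X j x ∧
    ∀ i j, h x i j = D.g x i j + (∑ k, D.g x i k * X k x) * (∑ k, D.g x j k * X k x) / V x ^ 2) →
  Iso {x | 0 < D.F x} h V m y → Slice D m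

/-- **EQM**: the equality case on manifolds with one end -/
def EQM : Prop := ∀ (n : ℕ) (M : Type) [Mfe n M] (D : Exterior n M) (m : ℝ) (P : Fin n → ℝ),
  3 ≤ n → D.IsAF → D.DEC → (∀ x, D.F x = 0 → thetaPlus D.g D.K D.F x = 0) → Outer D →
  D.IsEnergy m → D.IsMomentum P →
  (D.Amin.toReal / Stmt.omega n) ^ (((n : ℝ) - 2) / (n - 1)) / 2 = √(m ^ 2 - ∑ i, P i ^ 2) →
  Slice D √(m ^ 2 - ∑ i, P i ^ 2)

end Vale.Agent.P366SB
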