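import Vale.Agent.P366SB.Ar
import Vale.Agent.P366RB.Defs
import Vale.Agent.P366Z.Calc3

/-!
# P366SB: static Killing initial data in a chart
-/

open Filter Topology Set
open scoped ContDiff
open Vale.Agent.P366.Stmt Vale.Agent.T4 Vale.Agent.P366Z Vale.Agent.P366N.St
open Vale.Agent.P366RB

noncomputable section

namespace Vale.Agent.P366SB

variable {n : ℕ} {g K a : Field n} {N : E n → ℝ} {X p : Fin n → E n → ℝ} {y : E n}

/-- the function `N² - |X|²` -/
def la (g : Field n) (N : E n → ℝ) (X : Fin n → E n → ℝ) (y : E n) : ℝ := N y ^ 2 - P366RB.sq g X y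

theorem cd_lo (hg : Met g) (hX : ∀ i, ContDiffAt ℝ ∞ (X i) y) (j : Fin n) :
    ContDiffAt ℝ ∞ (lo g X j) y :=
  ContDiffAt.sum fun k _ => (hg.sm j k).contDiffAt.mul (hX k)

theorem sq_eq (g : Field n) (X : Fin n → E n → ℝ) :
    P366RB.sq g X = fun y => ∑ i, lo g X i y * X i y := by
  funext y
  refine Finset.sum_congr rfl fun i _ => ?_
  rw [lo, Finset.sum_mul]
  exact Finset.sum_congr rfl fun j _ => by ring

theorem cd_la (hg : Met g) (h : Kid g K a N X p y) : ContDiffAt ℝ ∞ (la g N X) y := by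
  unfold la
  rw [sq_eq]
  exact (h.smN.pow 2).sub (ContDiffAt.sum fun k _ => (cd_lo hg h.smX k).mul (h.smX k))

theorem pd_lo (hg : Met g) (h : Kid g K a N X p y) (i j : Fin n) :
    pd i (lo g X j) y = a y i j - N y * K y i j + ∑ l, chr g l i j y * lo g X l y := by
  have d := fun k => (h.smX k).differentiableAt (by simp)
  rw [← h.dX]
  unfold lo
  rw [pd_sum _ fun k _ => ((hg.sm j k).diff y).fun_mul (d k)]
  simp only [pd_mul ((hg.sm _ _).diff y) (d _), hg.pd_g i j, mul_add, add_mul,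
    Finset.sum_add_distrib, Finset.mul_sum, Finset.sum_mul]
  rw [Finset.sum_comm (f := fun k l => g y k l * chr g l i j y * X k y),
    Finset.sum_comm (f := fun k l => g y j l * chr g l i k y * X k y)]
  have e1 : ∑ l, ∑ k, g y k l * chr g l i j y * X k y =
      ∑ l, ∑ k, chr g l i j y * (g y l k * X k y) :=
    Finset.sum_congr rfl fun l _ => Finset.sum_congr rfl fun k _ => by rw [hg.sy y k l]; ring
  simp only [mul_assoc] at e1 ⊢
  rw [e1]
  ring

theorem pd_la (hg : Met g) (h : Kid g K a N X p y) (i : Fin n) :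
    pd i (la g N X) y = 2 * (N y * p i y - ∑ j, a y i j * X j y) := by
  have d := fun k => (h.smX k).differentiableAt (by simp)
  have d1 := fun k => (cd_lo hg h.smX k).differentiableAt (by simp)
  have d2 := h.smN.differentiableAt (by simp)
  have e1 : ∑ j, lo g X j y * (pd i (X j) y + ∑ l, chr g j i l y * X l y) =
      ∑ j, (a y i j - N y * K y i j) * X j y := by
    simp only [← h.dX, lo, Finset.sum_mul]
    rw [Finset.sum_comm]
    exact Finset.sum_congr rfl fun l _ => Finset.sum_congr rfl fun k _ => by rw [hg.sy y k l]; ring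
  have e2 : ∑ j, (∑ l, chr g l i j y * lo g X l y) * X j y =
      ∑ j, lo g X j y * ∑ l, chr g j i l y * X l y := by
    simp only [Finset.sum_mul, Finset.mul_sum]
    rw [Finset.sum_comm]
    exact Finset.sum_congr rfl fun l _ => Finset.sum_congr rfl fun k _ => by ring
  unfold la
  rw [sq_eq, pd_sub (d2.fun_pow 2) (DifferentiableAt.fun_sum fun k _ => (d1 k).fun_mul (d k)),
    pd_pow d2, pd_sum _ fun k _ => (d1 k).fun_mul (d k), h.dN]
  simp only [pd_mul (d1 _) (d _), pd_lo hg h, mul_add, add_mul, sub_mul, Finset.sum_add_distrib,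
    Finset.sum_sub_distrib, mul_assoc, ← Finset.mul_sum] at e1 e2 ⊢
  norm_num
  linarith

theorem skew (h : Kid g K a N X p y) (i j : Fin n) : a y j i = -a y i j :=
  mul_left_cancel₀ h.N0.ne' (by rw [mul_neg, h.st, h.st]; ring)

theorem closed (hg : Met g) (hK : ∀ i j, K y i j = K y j i) (h : Kid g K a N X p y) (i j : Fin n) :
    pd i (fun z => -(la g N X z)⁻¹ * lo g X j z) y =
      pd j (fun z => -(la g N X z)⁻¹ * lo g X i z) y := by
  have d1 := fun k => (cd_lo hg h.smX k).differentiableAt (by simp)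
  have d2 := (cd_la hg h).differentiableAt (by simp)
  have l0 : la g N X y ≠ 0 := (sub_pos.2 h.l0).ne'
  have e1 : ∀ i, N y * ∑ k, a y i k * X k y =
      p i y * (N y ^ 2 - la g N X y) - lo g X i y * ∑ k, p k y * X k y := fun i => by
    rw [la, sub_sub_cancel, sq_eq]
    simp only [Finset.mul_sum, ← Finset.sum_sub_distrib]
    exact Finset.sum_congr rfl fun k _ => by rw [← mul_assoc, h.st]; ring
  rw [pd_mul (d2.fun_inv l0).fun_neg (d1 _), pd_mul (d2.fun_inv l0).fun_neg (d1 _), pd_neg, pd_neg,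
    pd_inv d2 l0, pd_inv d2 l0, pd_la hg h, pd_la hg h, pd_lo hg h, pd_lo hg h, skew h i j, hK j i]
  simp only [hg.chr_sy _ j i]
  have e2 := h.st i j
  have e3 := e1 i
  have e4 := e1 j
  apply mul_left_cancel₀ h.N0.ne'
  field_simp
  linear_combination -2 * la g N X y * e2 - 2 * lo g X j y * e3 + 2 * lo g X i y * e4

theorem kill (hg : Met g) (hK : ∀ i j, K y i j = K y j i) (h : Kid g K a N X p y) {t : E n → ℝ}
    (ht : ContDiffAt ℝ 2 t y) (e : ∀ᶠ z in 𝓝 y, ∀ j, lo g X j z = -la g N X z * pd j t z)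
    (i j : Fin n) : 2 * N y * K y i j = pd i (la g N X) y * pd j t y +
      pd i t y * pd j (la g N X) y + 2 * la g N X y * hess g t y i j := by
  have d2 := (cd_la hg h).differentiableAt (by simp)
  have e1 : ∀ i j, pd i (lo g X j) y =
      -(pd i (la g N X) y * pd j t y + la g N X y * pd i (pd j t) y) := fun i j => by
    rw [pd_congr (e.mono fun z hz => hz j), pd_mul d2.fun_neg (diffAt_pd ht j), pd_neg]
    ring
  have e2 := pd_lo hg h i j
  have e3 := pd_lo hg h j i
  rw [e1] at e2 e3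
  rw [skew h i j, hK j i, pd_comm ht j i] at e3
  simp only [hg.chr_sy _ j i] at e3
  have e4 : ∑ l, chr g l i j y * lo g X l y = -la g N X y * ∑ l, chr g l i j y * pd l t y := by
    rw [Finset.mul_sum]
    exact Finset.sum_congr rfl fun l _ => by rw [e.self_of_nhds l]; ring
  rw [hess]
  linear_combination e2 + e3 + 2 * e4

/-- the covariant form of the criterion -/
theorem sliceAt_cov {M c : ℝ} {Φ : Fin (n + 1) → E n → ℝ} {l : E n → ℝ} (hg : Met g)
    (hΦ : ∀ b, ContDiffAt ℝ 2 (Φ b) y) (h0 : 0 < len (spc (toPt Φ y)))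
    (hl : DifferentiableAt ℝ l y) (l0 : 0 < l y) (el : ∀ᶠ x in 𝓝 y, l x = stF M (spc (toPt Φ x)))
    (eG : ∀ᶠ x in 𝓝 y, ∀ i j,
      g x i j = Q (tang M (toPt Φ x)) (fun b => pd i (Φ b) x) fun b => pd j (Φ b) x)
    (hc : 0 < c) (ec : c ^ 2 = l y + l y ^ 2 * ip g (Φ 0) (Φ 0) y)
    (eK : ∀ i j, 2 * c * K y i j = pd i l y * pd j (Φ 0) y + pd i (Φ 0) y * pd j l y +
      2 * l y * hess g (Φ 0) y i j) : ∃ ν, SliceAt M g K Φ ν y := by
  refine sliceAt_of (w := fun j x => -l x * pd j (Φ 0) x) hg hΦ h0 (el.self_of_nhds ▸ l0) eG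
    (el.mono fun x hx j => by rw [hx]) hc ?_ fun i j => ?_
  · rw [ec, ← el.self_of_nhds, ip, Finset.mul_sum]
    congr 1
    refine Finset.sum_congr rfl fun i _ => ?_
    rw [Finset.mul_sum]
    exact Finset.sum_congr rfl fun j _ => by ring
  · rw [eK, pd_mul hl.fun_neg (diffAt_pd (hΦ 0) j), pd_mul hl.fun_neg (diffAt_pd (hΦ 0) i),
      pd_neg, pd_neg, pd_comm (hΦ 0) j i, hess,
      show ∑ k, chr g k i j y * (-l y * pd k (Φ 0) y) =
        -l y * ∑ k, chr g k i j y * pd k (Φ 0) y by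
          rw [Finset.mul_sum]
          exact Finset.sum_congr rfl fun k _ => by ring]
    ring

end Vale.Agent.P366SB
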