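import Vale.Agent.P366SB.Po
import Vale.Agent.P366N.Bd1
import Vale.Agent.P366N.Sl
import Vale.Agent.P366M.Inv2

/-!
# P366SB: closed forms on a region which is diffeomorphic to the exterior of a ball
-/

open Filter Topology Set Metric Function
open scoped ContDiff
open Vale.Agent.P366 Vale.Agent.P366M
open Vale.Agent.P366.Stmt (E)

noncomputable section

namespace Vale.Agent.P366SB

variable {n : ℕ} {M : Type} [Mf0 n M] {U : Set M} {y : M → E n} {w : Fin n → M → ℝ}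

theorem exists_inv {W : Set (E n)} (hU : IsOpen U) (hy : ∀ x ∈ U, CAt ∞ y x)
    (hj : ∀ x ∈ U, Injective (fd y x)) (hb : BijOn y U W) :
    ∃ ψ : E n → M, (∀ x ∈ U, ψ (y x) = x) ∧ ∀ x ∈ U, ∃ σ : E n → E n, ContDiffAt ℝ ∞ σ (y x) ∧
      σ (y x) = pt x ∧ ψ =ᶠ[𝓝 (y x)] fun z => (ch x).symm (σ z) := by
  have h0 : ∀ x ∈ U, invFunOn y U (y x) = x := fun x hx => hb.injOn.leftInvOn_invFunOn hx
  refine ⟨invFunOn y U, h0, fun x hx => ?_⟩
  obtain ⟨L, hL⟩ := P366N.exists_equiv _ (hj x hx)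
  obtain ⟨θ, t1, t2, t3, t4⟩ := P366N.locdiff (f := loc (ch x) y) (a := pt x)
    (hU.preimage (cont_symm (ch_mem x))) (by rwa [mem_preimage, symm_pt])
    (fun z hz => (hy _ hz).lc le_rfl (ch_mem x)) L
    (hL ▸ ((hy x hx).differentiableAt (by simp)).hasFDerivAt)
  have h1 : θ (pt x) = y x := by rw [t3, loc_pt]
  have h2 : y x ∈ θ.target := h1 ▸ θ.map_source t1
  refine ⟨θ.symm, t4.inv _ h2, by rw [← h1, θ.left_inv t1], ?_⟩
  filter_upwards [θ.open_target.mem_nhds h2] with z hz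
  have h3 := h0 _ (t2 (θ.map_target hz))
  rwa [← loc_apply y, ← t3, θ.right_inv hz] at h3

/-- `w` has a smooth primitive near `x` -/
def Lp (w : Fin n → M → ℝ) (x : M) : Prop :=
  ∃ τ : M → ℝ, CAt ∞ τ x ∧ ∀ᶠ z in 𝓝 x, ∀ i, pd i τ z = w i z

theorem exists_prim (hn : 3 ≤ n) {ρ : ℝ} (hρ : 0 ≤ ρ) (hU : IsOpen U) (hy : ∀ x ∈ U, CAt ∞ y x)
    (hj : ∀ x ∈ U, Injective (fd y x)) (hb : BijOn y U {z | ρ < ‖z‖}) (hw : ∀ x ∈ U, Lp w x) :
    ∃ t : M → ℝ, ∀ x ∈ U, CAt ∞ t x ∧ ∀ i, pd i t x = w i x := by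
  obtain ⟨ψ, p1, p2⟩ := exists_inv hU hy hj hb
  choose! τ t1 t2 using hw
  have h1 : ∀ z : E n, z ≠ 0 → ∃ x ∈ U, y x = sh ρ z ∧ ψ (sh ρ z) = x := fun z hz => by
    obtain ⟨x, hx, k⟩ := hb.surjOn (show sh ρ z ∈ {z | ρ < ‖z‖} by
      rw [mem_ofPred_eq, norm_sh hz (by positivity)]
      linarith [norm_pos_iff.2 hz])
    exact ⟨x, hx, k, k ▸ p1 x hx⟩
  have h2 : ∀ z : E n, z ≠ 0 → ψ (sh ρ z) ∈ U ∧ ∃ σ : E n → E n, ContDiffAt ℝ ∞ σ z ∧
      σ z = pt (ψ (sh ρ z)) ∧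
      (fun v => ψ (sh ρ v)) =ᶠ[𝓝 z] fun v => (ch (ψ (sh ρ z))).symm (σ v) := fun z hz => by
    obtain ⟨x, hx, k1, k2⟩ := h1 z hz
    obtain ⟨σ, s1, s2, s3⟩ := p2 x hx
    rw [k1] at s1 s2 s3
    rw [k2]
    exact ⟨hx, fun v => σ (sh ρ v), s1.comp z (cd_sh ρ hz), s2,
      (cd_sh ρ hz).continuousAt.tendsto.eventually s3⟩
  have h3 : ∀ z : E n, z ≠ 0 → ∀ u : M → ℝ, CAt ∞ u (ψ (sh ρ z)) →
      ContDiffAt ℝ ∞ (fun v => u (ψ (sh ρ v))) z := fun z hz u hu => by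
    obtain ⟨-, σ, s1, s2, s3⟩ := h2 z hz
    have k : ContDiffAt ℝ ∞ (loc (ch (ψ (sh ρ z))) u) (σ z) := s2 ▸ hu
    exact (k.comp z s1).congr_of_eventuallyEq (s3.fun_comp u)
  have h4 : ∀ z : E n, z ≠ 0 → ∀ u v : M → ℝ, DAt u (ψ (sh ρ z)) → DAt v (ψ (sh ρ z)) →
      (∀ i, pd i u (ψ (sh ρ z)) = pd i v (ψ (sh ρ z))) →
      DifferentiableAt ℝ (fun a => u (ψ (sh ρ a))) z ∧
      fderiv ℝ (fun a => u (ψ (sh ρ a))) z = fderiv ℝ (fun a => v (ψ (sh ρ a))) z := by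
    intro z hz u v hu hv h
    obtain ⟨-, σ, s1, s2, s3⟩ := h2 z hz
    have k := (s1.differentiableAt (by simp)).hasFDerivAt
    have k1 := (HasFDerivAt.comp z (s2 ▸ hu.hasFDerivAt) k).congr_of_eventuallyEq (s3.fun_comp u)
    have k2 := (HasFDerivAt.comp z (s2 ▸ hv.hasFDerivAt) k).congr_of_eventuallyEq (s3.fun_comp v)
    refine ⟨k1.differentiableAt, k1.fderiv.trans (Eq.trans ?_ k2.fderiv.symm)⟩
    congr 1
    ext ξ
    simp only [fderiv_eq_sum hu, fderiv_eq_sum hv, h]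
  have h5 : ∀ z : E n, z ≠ 0 → ∀ᶠ v in 𝓝 z, v ≠ 0 ∧
      DifferentiableAt ℝ (fun a => τ (ψ (sh ρ z)) (ψ (sh ρ a))) v ∧
      fderiv ℝ (fun a => τ (ψ (sh ρ z)) (ψ (sh ρ a))) v =
        fderiv ℝ (fun a => τ (ψ (sh ρ v)) (ψ (sh ρ a))) v := fun z hz => by
    obtain ⟨hx, σ, s1, s2, s3⟩ := h2 z hz
    have k : Tendsto (fun v => ψ (sh ρ v)) (𝓝 z) (𝓝 (ψ (sh ρ z))) :=
      ((tendsto_pt _).comp (s2 ▸ s1.continuousAt.tendsto)).congr' s3.symm
    filter_upwards [isOpen_ne.mem_nhds hz, k.eventually (t2 _ hx),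
      k.eventually (ev_diff ((t1 _ hx).of_le two_le_oo))] with v l1 l2 l3
    have l4 := (h2 v l1).1
    exact ⟨l1, h4 v l1 _ _ l3 ((t1 _ l4).differentiableAt (by simp))
      fun i => (l2 i).trans ((t2 _ l4).self_of_nhds i).symm⟩
  obtain ⟨f, hf⟩ := punct_prim (V := E n)
    (η := fun v => fderiv ℝ (fun a => τ (ψ (sh ρ v)) (ψ (sh ρ a))) v) (by simpa using hn)
    fun z hz => ⟨_, (h3 z hz _ (t1 _ (h2 z hz).1)).of_le two_le_oo,
      (h5 z hz).mono fun v hv => hv.2.2.symm⟩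
  refine ⟨fun x => f (sh (-ρ) (y x)), fun x hx => ?_⟩
  have k0 : ρ < ‖y x‖ := hb.mapsTo hx
  have k1 : y x ≠ 0 := norm_pos_iff.1 (hρ.trans_lt k0)
  have k2 : sh (-ρ) (y x) ≠ 0 := norm_pos_iff.1 (by rw [norm_sh k1 (by linarith)]; linarith)
  have k3 : ψ (sh ρ (sh (-ρ) (y x))) = x := by rw [sh_sh hρ k0, p1 x hx]
  obtain ⟨r, hr, k4⟩ := Metric.eventually_nhds_iff_ball.1 (h5 _ k2)
  rw [k3] at k4
  obtain ⟨c, hc⟩ := isOpen_ball.exists_eq_add_of_fderiv_eq (𝕜 := ℝ)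
    (convex_ball (sh (-ρ) (y x)) r).isPreconnected
    (fun v hv => (hf v (k4 v hv).1).differentiableAt.differentiableWithinAt)
    (fun v hv => (k4 v hv).2.1.differentiableWithinAt)
    fun v hv => (hf v (k4 v hv).1).fderiv.trans (k4 v hv).2.2.symm
  have k5 : (fun x => f (sh (-ρ) (y x))) =ᶠ[𝓝 x] fun z => τ x z + c := by
    filter_upwards [hU.mem_nhds hx, ((cd_sh (-ρ) k1).continuousAt.tendsto.comp
      (hy x hx).continuousAt.tendsto).eventually (ball_mem_nhds _ hr)] with z l1 l2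
    refine (hc l2).trans ?_
    simp only [comp_apply, sh_sh hρ (hb.mapsTo l1), p1 z l1]
  exact ⟨((t1 x hx).add cAt_const).congr_of_eventuallyEq k5, fun i => by
    rw [pd_congr k5, pd_add_const, (t2 x hx).self_of_nhds i]⟩

/-- a closed form has local primitives -/
theorem lp_of {x : M} (h : ∀ᶠ z in 𝓝 (pt x), (∀ i, ContDiffAt ℝ ∞ (repC (ch x) w i) z) ∧
    ∀ i j, Stmt.pd i (repC (ch x) w j) z = Stmt.pd j (repC (ch x) w i) z) : Lp w x := by
  obtain ⟨r, hr, h⟩ := Metric.eventually_nhds_iff_ball.1 h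
  set η : E n → E n →L[ℝ] ℝ := fun z => ∑ i, repC (ch x) w i z • EuclideanSpace.proj i with hη
  have h1 : ∀ z ∈ ball (pt x) r, ContDiffAt ℝ ∞ η z := fun z hz =>
    ContDiffAt.sum fun i _ => ((h z hz).1 i).smul contDiffAt_const
  obtain ⟨f, hf⟩ := (convex_ball (pt x) r).exists_forall_hasFDerivAt_of_fderiv_symmetric
    isOpen_ball (fun z hz => ((h1 z hz).differentiableAt (by simp)).differentiableWithinAt)
    fun z hz u v => by
      have k := fun i => ((h z hz).1 i).differentiableAt (by simp)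
      have k1 : HasFDerivAt η (∑ i, (fderiv ℝ (repC (ch x) w i) z).smulRight
          (EuclideanSpace.proj i : E n →L[ℝ] ℝ)) z :=
        HasFDerivAt.fun_sum fun i _ =>
          (k i).hasFDerivAt.smul_const (EuclideanSpace.proj i : E n →L[ℝ] ℝ)
      simp only [k1.fderiv, sum_apply, ContinuousLinearMap.smulRight_apply,
        smul_apply, P366Z.fderiv_eq_sum (k _), smul_eq_mul, Finset.sum_mul,
        EuclideanSpace.coe_proj]
      rw [Finset.sum_comm]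
      exact Finset.sum_congr rfl fun i _ => Finset.sum_congr rfl fun j _ => by
        rw [(h z hz).2 i j]; ring
  have h2 : loc (ch x) (fun z => f (ch x z)) = f := funext fun z => by
    rw [loc_apply, right_inv (ch_mem x)]
  refine ⟨fun z => f (ch x z), ?_, ev_pt.2 ?_⟩
  · unfold CAt
    rw [h2]
    refine ((contDiffOn_infty_iff_fderiv_of_isOpen isOpen_ball).2
      ⟨fun z hz => (hf z hz).differentiableAt.differentiableWithinAt, fun z hz =>
        ((h1 z hz).contDiffWithinAt).congr (fun v hv => (hf v hv).fderiv)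
          (hf z hz).fderiv⟩).contDiffAt (ball_mem_nhds _ hr)
  · filter_upwards [ball_mem_nhds _ hr] with z hz
    have k1 : DAt (fun z => f (ch x z)) ((ch x).symm z) :=
      dAt_of_loc (ch_mem x) (h2.symm ▸ (hf z hz).differentiableAt)
    have k2 : (fun i => repC (ch x) (fun j => pd j fun z => f (ch x z)) i z) =
        fun i => repC (ch x) w i z := funext fun i => by
      rw [← pd_rep (ch_mem x) k1, h2, P366Z.pd_of_hasFDerivAt (hf z hz)]
      simp [hη]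
    rw [repC_eq, repC_eq] at k2
    exact congrFun (Matrix.mulVec_injective_iff_isUnit.2 ((Matrix.isUnit_iff_isUnit_det _).2
      (Matrix.det_transpose (J (ch x) z) ▸ J_unit (ch_mem x) z)) k2)

end Vale.Agent.P366SB
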