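import Vale.Agent.P366SB.Defs
import Vale.Agent.P366SB.Kd
import Vale.Agent.P366SB.Pr
import Vale.Agent.P366M.Calc

/-!
# P366SB: the slice
-/

open Filter Topology Set Function
open scoped ContDiff
open Vale.Agent.P366 Vale.Agent.P366M Vale.Agent.P366DV
open Vale.Agent.T4 (stF spc toPt tang)

noncomputable section

namespace Vale.Agent.P366SB

variable {n : ℕ} {M : Type}

section L0

variable [Mf0 n M] {g K : Fld n M} {N : M → ℝ} {X : Fin n → M → ℝ} {e : Ch n M} {x : M}

/-- the function `N² - |X|²` -/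
def lam (g : Fld n M) (N : M → ℝ) (X : Fin n → M → ℝ) (x : M) : ℝ :=
  N x ^ 2 - ∑ i, ∑ j, g x i j * X i x * X j x

/-- the form `dt` -/
def dt (g : Fld n M) (N : M → ℝ) (X : Fin n → M → ℝ) (i : Fin n) (x : M) : ℝ :=
  -(lam g N X x)⁻¹ * ∑ k, g x i k * X k x

theorem loc_lam (he : e ∈ At M) : loc e (lam g N X) = la (rep e g) (loc e N) (repV e X) :=
  funext fun y => by rw [la, P366RB.sq, quad_rep he]; rfl

theorem repC_dt (he : e ∈ At M) : repC e (dt g N X) = fun i y =>
    -(la (rep e g) (loc e N) (repV e X) y)⁻¹ * P366RB.lo (rep e g) (repV e X) i y := by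
  unfold dt
  rw [repC_smul e fun x => -(lam g N X x)⁻¹, lower_rep he, ← loc_lam he]
  rfl

theorem KidAt.pos (h : KidAt g K N X x) : 0 < N x ∧ 0 < lam g N X x := by
  obtain ⟨a, p, h⟩ := h
  have k := h.self_of_nhds
  refine ⟨by simpa using k.N0, ?_⟩
  rw [← loc_pt (lam g N X), loc_lam (ch_mem x)]
  exact sub_pos.2 k.l0

theorem KidAt.sm (hg : Met g) (h : KidAt g K N X x) : CAt ∞ (lam g N X) x := by
  obtain ⟨a, p, h⟩ := h
  unfold CAt
  rw [loc_lam (ch_mem x)]
  exact cd_la (hg.rep (ch_mem x)) h.self_of_nhds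

theorem KidAt.lp (hg : Met g) (hK : ∀ x i j, K x i j = K x j i) (h : KidAt g K N X x) :
    Lp (dt g N X) x := by
  obtain ⟨a, p, h⟩ := h
  refine lp_of ?_
  rw [repC_dt (ch_mem x)]
  exact h.mono fun z hz => ⟨fun i => ((cd_la (hg.rep (ch_mem x)) hz).inv
    (sub_pos.2 hz.l0).ne').neg.mul (cd_lo (hg.rep (ch_mem x)) hz.smX i),
    closed (hg.rep (ch_mem x)) (rep_sy hK _ z) hz⟩

theorem KidAt.kill (hg : Met g) (hK : ∀ x i j, K x i j = K x j i) (h : KidAt g K N X x)
    {t : M → ℝ} (ht : CAt 2 t x) (e : ∀ᶠ z in 𝓝 x, ∀ i, pd i t z = dt g N X i z) (i j : Fin n) :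
    2 * N x * K x i j = pd i (lam g N X) x * pd j t x + pd i t x * pd j (lam g N X) x +
      2 * lam g N X x * hess g t x i j := by
  obtain ⟨a, p, h⟩ := h
  have k := P366SB.kill (hg.rep (ch_mem x)) (rep_sy hK _ _) h.self_of_nhds ht (by
    filter_upwards [h, ev_pt.1 e, ev_dAt ht] with z h1 h2 h3 j
    have k : repC (ch x) (fun j => pd j t) j z = repC (ch x) (dt g N X) j z := by
      simp only [repC, h2]
    rw [pd_rep (ch_mem x) h3, k, repC_dt (ch_mem x)]
    have l0 : la (rep (ch x) g) (loc (ch x) N) (repV (ch x) X) z ≠ 0 := (sub_pos.2 h1.l0).ne'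
    field_simp) i j
  rwa [← loc_lam (ch_mem x), loc_pt, loc_pt, rep_pt] at k

theorem ip_dt (hg : Met g) {t : M → ℝ} (h0 : lam g N X x ≠ 0) (e : ∀ i, pd i t x = dt g N X i x) :
    N x ^ 2 = lam g N X x + lam g N X x ^ 2 * ip g t t x := by
  have h1 : ∀ i, ∑ j, up g i j x * ∑ k, g x j k * X k x = X i x := fun i => by
    simp only [Finset.mul_sum, ← mul_assoc]
    rw [Finset.sum_comm]
    simp only [← Finset.sum_mul, hg.up_mul]
    simp
  have h2 : lam g N X x ^ 2 * ip g t t x = ∑ i, ∑ j, g x i j * X i x * X j x := by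
    rw [ip, Finset.mul_sum]
    refine Finset.sum_congr rfl fun i _ => ?_
    rw [show ∑ j, g x i j * X i x * X j x = (∑ k, g x i k * X k x) * X i x by
      rw [Finset.sum_mul]
      exact Finset.sum_congr rfl fun k _ => by ring, ← h1 i, Finset.mul_sum, Finset.mul_sum]
    refine Finset.sum_congr rfl fun j _ => ?_
    rw [e, e, dt, dt]
    field_simp
  rw [h2, lam, sub_add_cancel]

theorem cAt_coord {k : ℕ} {y : M → Stmt.E k} (h : CAt ∞ y x) (i : Fin k) : CAt ∞ (fun z => y z i) x :=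
  (P366Z.contDiff_coord i).contDiffAt.compM h

theorem inj_fd {y : M → Stmt.E n} (hy : CAt ∞ y x)
    (h : ∀ v : Fin n → ℝ, ∑ i, ∑ j, P366DV.em y x i j * v i * v j = 0 → v = 0) : Injective (fd y x) := by
  refine (injective_iff_map_eq_zero _).2 fun v hv => ?_
  have d := hy.differentiableAt (by simp)
  have h1 : ∀ k, ∑ i, v i * pd i (fun z => y z k) x = 0 := fun k => by
    rw [← fderiv_eq_sum ((cAt_coord hy k).differentiableAt (by simp))]
    have := ((EuclideanSpace.proj (𝕜 := ℝ) k).hasFDerivAt.comp (pt x) d.hasFDerivAt).fderiv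
    rw [fd, show loc (ch x) (fun z => y z k) = EuclideanSpace.proj (𝕜 := ℝ) k ∘ loc (ch x) y from rfl,
      this, ContinuousLinearMap.comp_apply, hv, map_zero]
  have h2 := h v (by
    simp only [P366DV.em, Finset.sum_mul]
    rw [Finset.sum_congr rfl fun i _ => Finset.sum_comm, Finset.sum_comm]
    refine Finset.sum_eq_zero fun k _ => ?_
    rw [← mul_zero (∑ i, v i * pd i (fun z => y z k) x), ← h1 k, Finset.sum_mul_sum]
    exact Finset.sum_congr rfl fun i _ => Finset.sum_congr rfl fun j _ => by ring)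
  ext i
  exact congrFun h2 i

end L0

theorem s3b : S3B := by
  intro n M _ D N V X h m y hn hm H I
  have hg := D.met
  have hU : IsOpen {x | 0 < D.F x} := isOpen_lt continuous_const D.dom.1.cont
  have lv : ∀ x, 0 < D.F x → lam D.g N X x = V x ^ 2 := fun x hx => (H x hx).2.1.symm
  have l0 : ∀ x, 0 < D.F x → 0 < lam D.g N X x := fun x hx => (H x hx).1.pos.2
  have b0 : ∀ x, 0 < D.F x → m / 2 < ‖y x‖ ^ ((n : ℝ) - 2) := fun x hx => I.bij.mapsTo hx
  obtain ⟨t, ht⟩ := exists_prim hn (ρ := (m / 2) ^ ((n : ℝ) - 2)⁻¹) (by positivity) hU I.sm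
    (fun x hx => inj_fd (I.sm x hx) fun v hv => by
      by_contra k
      have k1 := hg.g_pos x k
      have k2 : ∑ i, ∑ j, h x i j * v i * v j = 0 := by
        simp only [I.h x hx, mul_assoc, ← Finset.mul_sum] at hv ⊢
        rw [hv, mul_zero]
      have k3 : ∑ i, ∑ j, h x i j * v i * v j = ∑ i, ∑ j, D.g x i j * v i * v j +
          ((∑ i, (∑ k, D.g x i k * X k x) * v i) / V x) ^ 2 := by
        rw [div_pow, sq (∑ i, _), Finset.sum_mul_sum, Finset.sum_div, ← Finset.sum_add_distrib]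
        refine Finset.sum_congr rfl fun i _ => ?_
        rw [Finset.sum_div, ← Finset.sum_add_distrib]
        exact Finset.sum_congr rfl fun j _ => by rw [(H x hx).2.2]; ring
      nlinarith [sq_nonneg ((∑ i, (∑ k, D.g x i k * X k x) * v i) / V x)])
    (by
      rw [show {z : Stmt.E n | (m / 2) ^ ((n : ℝ) - 2)⁻¹ < ‖z‖} =
        {z | m / 2 < ‖z‖ ^ ((n : ℝ) - 2)} from
        Set.ext fun z => Real.rpow_inv_lt_iff_of_pos (by positivity) (norm_nonneg z) (p_pos hn)]
      exact I.bij)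
    fun x hx => (H x hx).1.lp hg D.syK
  set Φ : Fin (n + 1) → M → ℝ := Fin.cons t fun k x => ar m (y x) k with hΦ
  have s1 : ∀ a x, 0 < D.F x → CAt ∞ (Φ a) x := fun a x hx => by
    refine Fin.cases (ht x hx).1 (fun k => ?_) a
    exact cAt_coord ((cd_ar (ne_of hn hm (b0 x hx)) (uu_pos hm (b0 x hx))).compM (I.sm x hx)) k
  refine ⟨Φ, s1, (bij_ar hn hm).comp I.bij, fun e he z hz => ?_⟩
  have ev : ∀ᶠ v in 𝓝 z, 0 < D.F (e.symm v) := (tendsto_symm he z).eventually (hU.mem_nhds hz)
  have sp : ∀ v, spc (toPt (fun a => loc e (Φ a)) v) = ar m (y (e.symm v)) := fun v => rfl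
  have d1 := (ht _ hz).1.differentiableAt (by simp)
  have d2 := ((H _ hz).1.sm hg).differentiableAt (by simp)
  refine sliceAt_cov (l := loc e (lam D.g N X)) (c := N (e.symm z)) (hg.rep he)
    (fun b => ((s1 b _ hz).lc le_rfl he).of_le two_le_oo) ((bij_ar hn hm).mapsTo (b0 _ hz)).1
    (d2.lc he) (l0 _ hz) (ev.mono fun v hv => ?_) (ev.mono fun v hv i j => ?_) (H _ hz).1.pos.1
    ?_ fun i j => ?_
  · rw [sp, stF_ar hn hm (b0 _ hv), loc_apply, lv _ hv, I.V _ hv]
  · have d3 := fun k => (cAt_coord (I.sm _ hv) k).differentiableAt (by simp)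
    rw [Q_ar hn hm (y := loc e y) (t := loc e t) (((I.sm _ hv).differentiableAt (by simp)).lc he)
      (b0 _ hv) rfl (fun _ => rfl) i j]
    have k1 : rep e D.g v i j = rep e (fun x i j => -V x ^ 2 * (pd i t x * pd j t x) +
        (1 + uu m (y x)) ^ (4 / ((n : ℝ) - 2)) *
          ∑ k, pd i (fun z => y z k) x * pd j (fun z => y z k) x) v i j := by
      refine Finset.sum_congr rfl fun a _ => Finset.sum_congr rfl fun b _ => ?_
      have k2 := I.h _ hv a b
      rw [(H _ hv).2.2, P366DV.em] at k2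
      have k3 := (l0 _ hv).ne'
      beta_reduce
      rw [← k2, (ht _ hv).2, (ht _ hv).2, dt, dt, ← lv _ hv]
      field_simp
      ring
    rw [k1, rep_add, rep_smul e fun x => -V x ^ 2,
      rep_smul e fun x => (1 + uu m (y x)) ^ (4 / ((n : ℝ) - 2)), rep_sum,
      rep_prod e (fun i => pd i t) fun i => pd i t]
    simp only [fun k => rep_prod e (fun i => pd i fun z => y z k) fun i => pd i fun z => y z k,
      ← pd_rep he ((ht _ hv).1.differentiableAt (by simp)), ← pd_rep he (d3 _), loc_apply,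
      I.V _ hv]
    rfl
  · rw [show loc e (Φ 0) = loc e t from rfl, ip_rep he _ d1 d1]
    exact ip_dt hg (l0 _ hz).ne' (ht _ hz).2
  · have c2 := (ht _ hz).1.of_le two_le_oo
    have k1 : rep e (fun x i j => 2 * N x * D.K x i j) z i j =
        rep e (fun x i j => pd i (lam D.g N X) x * pd j t x + pd i t x * pd j (lam D.g N X) x +
          2 * lam D.g N X x * hess D.g t x i j) z i j := by
      simp only [rep, (H _ hz).1.kill hg D.syK c2
        ((hU.eventually_mem hz).mono fun x hx => (ht x hx).2)]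
    rw [rep_smul e fun x => 2 * N x, rep_add, rep_add, rep_smul e fun x => 2 * lam D.g N X x,
      rep_prod e (fun i => pd i (lam D.g N X)) fun i => pd i t,
      rep_prod e (fun i => pd i t) fun i => pd i (lam D.g N X)] at k1
    simp only [← pd_rep he d1, ← pd_rep he d2, ← hess_rep hg he c2] at k1
    exact k1

end Vale.Agent.P366SB
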