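import Vale.Agent.P366SB.Defs
import Vale.Agent.P366N.Fin2

/-!
# P366SB: the equality case follows from the equality case on manifolds with one end
-/

open Filter Topology Set Function Manifold
open scoped ContDiff
open Vale.Agent.P366 Vale.Agent.P366M Vale.Agent.P366N
open Vale.Agent.P366.Stmt (Field omega)
open Vale.Agent.T4 (toPt)

noncomputable section

namespace Vale.Agent.P366SB

variable {n : ℕ}

theorem theta_congr {G G' L L' : Field n} {u u' : Stmt.E n → ℝ} {a : Stmt.E n}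
    (hG : G =ᶠ[𝓝 a] G') (hL : L a = L' a) (hu : u =ᶠ[𝓝 a] u') :
    Stmt.thetaPlus G L u a = Stmt.thetaPlus G' L' u' a := by
  have h1 : ∀ i j k, Stmt.pd k (fun y => G y i j) a = Stmt.pd k (fun y => G' y i j) a :=
    fun i j k => P366Z.pd_congr (hG.mono fun y hy => by simp only [hy]) k
  have h2 : ∀ i j, Stmt.pd i (Stmt.pd j u) a = Stmt.pd i (Stmt.pd j u') a :=
    fun i j => P366Z.pd_congr (P366Z.pd_congr_ev hu j) i
  simp only [Stmt.thetaPlus, Stmt.trS, Stmt.tr, Stmt.nrm, Stmt.covNorm, Stmt.hess, Stmt.chr,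
    Stmt.up, Stmt.mat, hG.self_of_nhds, hL, h1, h2, P366Z.pd_congr hu]

theorem slice_congr {m : ℝ} {G G' L L' : Field n} {Φ Φ' : Fin (n + 1) → Stmt.E n → ℝ}
    {ν : Fin (n + 1) → ℝ} {a : Stmt.E n} (hG : G a = G' a) (hL : L a = L' a)
    (hu : ∀ b, Φ b =ᶠ[𝓝 a] Φ' b) (h : St.SliceAt m G L Φ ν a) : St.SliceAt m G' L' Φ' ν a := by
  have h1 : toPt Φ a = toPt Φ' a := by simp only [toPt, fun b => (hu b).self_of_nhds]
  have h2 : ∀ b i j, Stmt.pd i (Stmt.pd j (Φ b)) a = Stmt.pd i (Stmt.pd j (Φ' b)) a :=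
    fun b i j => P366Z.pd_congr (P366Z.pd_congr_ev (hu b) j) i
  simpa only [St.SliceAt, hG, hL, h1, h2, fun b => P366Z.pd_congr (hu b)] using h

variable [NeZero n] {Ω : Type} [TopologicalSpace Ω] [ChartedSpace (EuclideanHalfSpace n) Ω]
  [IsManifold (𝓡∂ n) ∞ Ω] {M : Type} [Mfe n M] {κ : Ω → M} {c : Ch n M} {x : Ω}
  {D : St.Data n Ω} {X : Exterior n M}

theorem nhds_int (hx : x ∉ bd n Ω) : 𝓝[Hs n] (ec n x x) = 𝓝 (ec n x x) :=
  nhdsWithin_eq_nhds.2 (mem_of_superset ((isOpen_lt continuous_const cont0).mem_nhds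
    ((ec_nonneg x x).lt_of_ne' ((bd_iff (mem_extChartAt_source x)).not.1 hx)))
    fun _ hy => mem_Hs.2 (le_of_lt hy))

theorem fn_ev (h : Adp κ x x c) (hx : x ∉ bd n Ω) (u : M → ℝ) :
    loc c u =ᶠ[𝓝 (ec n x x)] St.fnIn (fun z => u (κ z)) x := by
  rw [← nhds_int hx]
  refine (ev_ec h.src).1 ?_
  filter_upwards [h.loc u, extChartAt_source_mem_nhds' h.src] with z h1 h2
  rw [← h1]
  exact congrArg (fun w => u (κ w)) ((ec n x).left_inv h2).symm

omit [IsManifold (𝓡∂ n) ∞ Ω] in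
theorem pos_iff (h : Pk D.old κ X) : 0 < X.F (κ x) ↔ x ∉ bd n Ω :=
  ⟨fun k l => k.ne' ((h.zero x).2 l),
    fun k => ((h.rng _).2 ⟨x, rfl⟩).lt_of_ne' ((h.zero x).not.2 k)⟩

theorem marginal (h : Pk D.old κ X) (k : D.Marginal) (z : M) (hz : X.F z = 0) :
    thetaPlus X.g X.K X.F z = 0 := by
  obtain ⟨x, rfl⟩ := (h.rng z).1 hz.ge
  obtain ⟨c, hc⟩ := h.mod.ex (mem_extChartAt_source x)
  have hx := (h.zero x).1 hz
  obtain ⟨l1, l2⟩ := van_of (fun x => (h.rng _).2 ⟨x, rfl⟩) (fun x => (h.zero x).2) hc.src hx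
    ((hc.mfd X.dom.1).2 (X.dom.2.1 _ hz)) ((X.dom.1 c hc.mem).differentiable (by simp) _)
    (hc.loc X.F)
  have : Stmt.thetaPlus (rep c X.g) (rep c X.K) (fun y => y 0) (ec n x x) = 0 :=
    k x hx _ _ (hc.rep X.met.sm h.g) (hc.rep X.smK h.K)
  rwa [← l1.theta ((bd_iff hc.src).1 hx) l2 (X.met.rep hc.mem), thetaPlus_rep X.met hc.mem X.K
    (cAt_of_loc two_le_oo hc.mem ((X.dom.1 c hc.mem).of_le two_le_oo).contDiffAt), hc.eq] at this

theorem outer (h : Pk D.old κ X) (k : D.Outermost) : P366DV.Outer X := by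
  rintro ⟨G, g1, g2, g3⟩
  refine k ⟨fun x => G (κ x), and_assoc.2 (h.cut g1 fun z hz => (g2 z hz).le), fun x hx => ?_,
    fun x hx G' L' h1 h2 => ?_⟩
  · exact not_le.1 fun l => (pos_iff h).1 (g2 _ l) hx
  · have k1 := (pos_iff h).1 (g2 _ hx.ge)
    obtain ⟨c, hc⟩ := h.mod.ex (mem_extChartAt_source x)
    have k2 : ∀ᶠ y in 𝓝[Hs n] (ec n x x), rep c X.g y = G' y :=
      ((hc.rep X.met.sm h.g).2.and h1.2).mono fun y hy => hy.1.trans hy.2.symm
    have k3 : ∀ᶠ y in 𝓝[Hs n] (ec n x x), rep c X.K y = L' y :=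
      ((hc.rep X.smK h.K).2.and h2.2).mono fun y hy => hy.1.trans hy.2.symm
    rw [nhds_int k1] at k2 k3
    have k4 := g3 _ hx
    rw [← hc.eq, ← thetaPlus_rep X.met hc.mem X.K
      (cAt_of_loc two_le_oo hc.mem ((g1.1 c hc.mem).of_le two_le_oo).contDiffAt),
      theta_congr k2 k3.self_of_nhds (fn_ev hc k1 G)] at k4
    exact k4

theorem slice (h : Pk D.old κ X) {m : ℝ} (k : Slice X m) : D.IsSlice m := by
  obtain ⟨Φ, k1, k2, k3⟩ := k
  refine ⟨fun a x => Φ a (κ x), fun a x hx => ?_, k2.comp ⟨fun x hx => (pos_iff h).2 hx,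
    h.mod.emb.injective.injOn, fun z hz => ?_⟩, fun x hx => ?_⟩
  · obtain ⟨c, hc⟩ := h.mod.ex (mem_extChartAt_source x)
    exact (cmd_of hc.src (hc.loc (Φ a)) (CAt.lc le_rfl hc.mem
      (hc.eq.symm ▸ k1 a _ ((pos_iff h).2 hx)))).contMDiffWithinAt
  · obtain ⟨x, rfl⟩ := (h.rng z).1 (le_of_lt hz)
    exact ⟨x, (pos_iff h).1 hz, rfl⟩
  · obtain ⟨c, hc⟩ := h.mod.ex (mem_extChartAt_source x)
    obtain ⟨ν, hν⟩ := k3 c hc.mem (ec n x x) (hc.eq.symm ▸ (pos_iff h).2 hx)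
    exact ⟨ν, slice_congr (hc.rl.1 (h.g x)) (hc.rl.1 (h.K x)) (fun b => fn_ev hc hx (Φ b)) hν⟩

/-- **the transfer** -/
theorem eq_of (H : FULL) (H' : EQM) : P366F.EQ := by
  intro n _ Ω _ _ _ _ _ _ _ D m P hn h1 h2 h3 h4 h5 h6 h7
  obtain ⟨Y, R, y1, y2⟩ := Data.exists_end (D := D.old) hn h1
  obtain ⟨M, _, κ, hκ⟩ := y1.mod D.old.bdry
  rw [funext y2] at hκ
  obtain ⟨X, h⟩ := hκ.pk
  obtain ⟨k1, -, k3⟩ := H n M X m P hn (h.af h1) (h.dec h2)
    (fun z hz => (marginal h h3 z hz).le) (h.energy h5) (h.momentum h6)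
  have l6 : (3 : ℝ) ≤ n := by exact_mod_cast hn
  have l7 : 0 ≤ omega n := mul_nonneg (by positivity) (MeasureTheory.integral_nonneg fun _ =>
    zero_le_one)
  refine slice h (H' n M X m P hn (h.af h1) (h.dec h2) (marginal h h3) (outer h h4) (h.energy h5)
    (h.momentum h6) (le_antisymm k3 ?_))
  rw [← h7, D.amin_old]
  exact div_le_div_of_nonneg_right (Real.rpow_le_rpow (div_nonneg ENNReal.toReal_nonneg l7)
    (div_le_div_of_nonneg_right (ENNReal.toReal_mono k1 h.amin) l7)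
    (div_nonneg (by linarith) (by linarith))) zero_le_two

end Vale.Agent.P366SB
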