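import Vale.Agent.P366HB.Defs
import Vale.Agent.P366SB.Kd

/-!
# P366SB: the system of Killing initial data is of finite type
-/

open Filter Topology Set
open scoped ContDiff
open Vale.Agent.P366.Stmt Vale.Agent.P366Z
open Vale.Agent.P366RB (lo cK)
open Vale.Agent.P366HB

noncomputable section

namespace Vale.Agent.P366SB

variable {n : ℕ}

section SL

variable {W : Type} [NormedAddCommGroup W] [NormedSpace ℝ W] {f h : E n → W → ℝ} {c : E n → ℝ}

/-- linear in the second variable, smooth in the first one -/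
structure SL (f : E n → W → ℝ) : Prop where
  lin : ∀ y, IsLinearMap ℝ (f y)
  sm : ∀ z, Smooth fun y => f y z

theorem SL.add (hf : SL f) (hh : SL h) : SL fun y z => f y z + h y z :=
  ⟨fun y => ⟨fun a b => by rw [(hf.lin y).1, (hh.lin y).1]; ring,
    fun a b => by rw [(hf.lin y).2, (hh.lin y).2, smul_add]⟩, fun z => (hf.sm z).add (hh.sm z)⟩

theorem SL.sub (hf : SL f) (hh : SL h) : SL fun y z => f y z - h y z :=
  ⟨fun y => ⟨fun a b => by rw [(hf.lin y).1, (hh.lin y).1]; ring,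
    fun a b => by rw [(hf.lin y).2, (hh.lin y).2, smul_sub]⟩, fun z => (hf.sm z).sub (hh.sm z)⟩

theorem SL.mul (hc : Smooth c) (hf : SL f) : SL fun y z => c y * f y z :=
  ⟨fun y => ⟨fun a b => by rw [(hf.lin y).1]; ring,
    fun a b => by rw [(hf.lin y).2, smul_eq_mul, smul_eq_mul]; ring⟩, fun z => hc.mul (hf.sm z)⟩

theorem SL.mul' (hf : SL f) (hc : Smooth c) : SL fun y z => f y z * c y := by
  simpa only [mul_comm] using SL.mul hc hf

theorem SL.sum {ι : Type} [Fintype ι] {F : ι → E n → W → ℝ} (hF : ∀ i, SL (F i)) :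
    SL fun y z => ∑ i, F i y z :=
  ⟨fun y => ⟨fun a b => by simp only [fun i => ((hF i).lin y).1, Finset.sum_add_distrib],
    fun a b => by simp only [fun i => ((hF i).lin y).2, Finset.smul_sum]⟩,
    fun z => ContDiff.sum fun i _ => (hF i).sm z⟩

theorem sl_clm (φ : W →L[ℝ] ℝ) : SL fun (_ : E n) z => φ z :=
  ⟨fun _ => ⟨φ.map_add, φ.map_smul⟩, fun _ => contDiff_const⟩

end SL

theorem slN : SL fun (_ : E n) (z : Vn n) => z.1 :=
  ⟨fun _ => ⟨fun _ _ => rfl, fun _ _ => rfl⟩, fun _ => contDiff_const⟩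

theorem slX (k : Fin n) : SL fun (_ : E n) (z : Vn n) => z.2.1 k :=
  ⟨fun _ => ⟨fun _ _ => rfl, fun _ _ => rfl⟩, fun _ => contDiff_const⟩

theorem slp (k : Fin n) : SL fun (_ : E n) (z : Vn n) => z.2.2.1 k :=
  ⟨fun _ => ⟨fun _ _ => rfl, fun _ _ => rfl⟩, fun _ => contDiff_const⟩

theorem sla (i j : Fin n) : SL fun (_ : E n) (z : Vn n) => z.2.2.2 i j :=
  ⟨fun _ => ⟨fun _ _ => rfl, fun _ _ => rfl⟩, fun _ => contDiff_const⟩

/-- the coefficient of a system with given components -/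
theorem exists_A {b0 : Fin n → E n → Vn n → ℝ} {b1 b2 : Fin n → Fin n → E n → Vn n → ℝ}
    {b3 : Fin n → Fin n → Fin n → E n → Vn n → ℝ} (h0 : ∀ i, SL (b0 i)) (h1 : ∀ i k, SL (b1 i k))
    (h2 : ∀ i k, SL (b2 i k)) (h3 : ∀ i j k, SL (b3 i j k)) :
    ∃ A : E n → E n →L[ℝ] Vn n →L[ℝ] Vn n, ContDiff ℝ ∞ A ∧ ∀ y v z, A y v z =
      (∑ i, v i * b0 i y z, fun k => ∑ i, v i * b1 i k y z, fun k => ∑ i, v i * b2 i k y z,
        fun j k => ∑ i, v i * b3 i j k y z) := by
  have hl : ∀ y i, IsLinearMap ℝ fun z : Vn n => ((b0 i y z, fun k => b1 i k y z,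
      fun k => b2 i k y z, fun j k => b3 i j k y z) : Vn n) := fun y i =>
    ⟨fun a b => by
      simp only [((h0 _).lin y).1, fun k => ((h1 i k).lin y).1, fun k => ((h2 i k).lin y).1,
        fun j k => ((h3 i j k).lin y).1]
      rfl, fun a b => by
      simp only [((h0 _).lin y).2, fun k => ((h1 i k).lin y).2, fun k => ((h2 i k).lin y).2,
        fun j k => ((h3 i j k).lin y).2]
      rfl⟩
  let A : E n → E n →L[ℝ] Vn n →L[ℝ] Vn n := fun y => ∑ i,
    (EuclideanSpace.proj i : E n →L[ℝ] ℝ).smulRight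
      (LinearMap.toContinuousLinearMap ((hl y i).mk' _))
  have hA : ∀ y v z, A y v z =
      (∑ i, v i * b0 i y z, fun k => ∑ i, v i * b1 i k y z, fun k => ∑ i, v i * b2 i k y z,
        fun j k => ∑ i, v i * b3 i j k y z) := fun y v z => by
    simp only [A, sum_apply, ContinuousLinearMap.smulRight_apply, smul_apply]
    refine Prod.ext ?_ (Prod.ext ?_ (Prod.ext ?_ ?_))
    · simp [Prod.fst_sum]
    · funext k
      simp [Prod.fst_sum, Prod.snd_sum]
    · funext k
      simp [Prod.fst_sum, Prod.snd_sum]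
    · funext j k
      simp [Prod.snd_sum]
  refine ⟨A, contDiff_clm_apply_iff.2 fun v => contDiff_clm_apply_iff.2 fun z => ?_, hA⟩
  simp only [hA]
  exact (ContDiff.sum fun i _ => contDiff_const.mul ((h0 i).sm z)).prodMk
    ((contDiff_pi.2 fun k => ContDiff.sum fun i _ => contDiff_const.mul ((h1 i k).sm z)).prodMk
    ((contDiff_pi.2 fun k => ContDiff.sum fun i _ => contDiff_const.mul ((h2 i k).sm z)).prodMk
    (contDiff_pi.2 fun j => contDiff_pi.2 fun k => ContDiff.sum fun i _ =>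
      contDiff_const.mul ((h3 i j k).sm z))))

variable {g K a : Field n} {c : Fin n → Fin n → Fin n → E n → ℝ} {N : E n → ℝ}
  {X p : Fin n → E n → ℝ} {y : E n}

theorem has_ZZ (hN : DifferentiableAt ℝ N y) (hX : ∀ i, DifferentiableAt ℝ (X i) y)
    (hp : ∀ i, DifferentiableAt ℝ (p i) y) (ha : ∀ i j, DifferentiableAt ℝ (fun z => a z i j) y)
    {L : E n →L[ℝ] Vn n} (hL : ∀ v, L v = (∑ i, v i * pd i N y, fun k => ∑ i, v i * pd i (X k) y,
      fun k => ∑ i, v i * pd i (p k) y, fun j k => ∑ i, v i * pd i (fun z => a z j k) y)) :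
    HasFDerivAt (ZZ a N X p) L y := by
  have h := hN.hasFDerivAt.prodMk ((hasFDerivAt_pi.2 fun i => (hX i).hasFDerivAt).prodMk
    ((hasFDerivAt_pi.2 fun i => (hp i).hasFDerivAt).prodMk
      (hasFDerivAt_pi.2 fun i => hasFDerivAt_pi.2 fun j => (ha i j).hasFDerivAt)))
  refine HasFDerivAt.congr_fderiv h (ContinuousLinearMap.ext fun v => ?_)
  rw [hL]
  simp only [← fderiv_eq_sum hN, ← fderiv_eq_sum (hX _), ← fderiv_eq_sum (hp _),
    ← fderiv_eq_sum (ha _ _)]
  rfl

/-- Killing initial data with a source which is linear in `X` -/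
structure Kg (g K : Field n) (c : Fin n → Fin n → Fin n → E n → ℝ) (a : Field n) (N : E n → ℝ)
    (X p : Fin n → E n → ℝ) (y : E n) : Prop where
  smN : ContDiffAt ℝ ∞ N y
  smX : ∀ i, ContDiffAt ℝ ∞ (X i) y
  smp : ∀ i, ContDiffAt ℝ ∞ (p i) y
  sk : ∀ i j, a y i j = -a y j i
  dN : ∀ i, pd i N y = p i y - ∑ j, K y i j * X j y
  dX : ∀ i j, ∑ k, g y j k * (pd i (X k) y + ∑ l, chr g k i l y * X l y) = a y i j - N y * K y i j
  dp : ∀ i j, pd i (p j) y - ∑ l, chr g l i j y * p l y =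
    N y * (P366Y.C.rc g y i j + tr g K y * K y i j - ∑ k, ∑ l, up g k l y * K y i k * K y l j) +
      ∑ k, X k y * (cK g K i j k y - cK g K k i j y) - ∑ k, ∑ l, up g k l y * K y i k * a y j l +
      ∑ k, c i j k y * X k y

theorem kg_of (h : Kd g K a N X p y) : Kg g K (fun _ _ _ _ => 0) a N X p y :=
  ⟨h.smN, h.smX, h.smp, h.sk, h.dN, h.dX, fun i j => by simp [h.dp]⟩

theorem Kg.pd_lo (hg : Met g) (h : Kg g K c a N X p y) (i j : Fin n) :
    pd i (lo g X j) y = a y i j - N y * K y i j + ∑ l, chr g l i j y * lo g X l y := by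
  have d := fun k => (h.smX k).differentiableAt (by simp)
  rw [← h.dX]
  unfold lo
  rw [pd_sum _ fun k _ => ((hg.sm j k).diff y).fun_mul (d k)]
  simp only [pd_mul ((hg.sm _ _).diff y) (d _), hg.pd_g i j, mul_add, add_mul,
    Finset.sum_add_distrib, Finset.mul_sum, Finset.sum_mul]
  rw [Finset.sum_comm (f := fun k l => g y k l * chr g l i j y * X k y),
    Finset.sum_comm (f := fun k l => g y j l * chr g l i k y * X k y)]
  have e1 : ∑ l, ∑ k, g y k l * chr g l i j y * X k y =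
      ∑ l, ∑ k, chr g l i j y * (g y l k * X k y) :=
    Finset.sum_congr rfl fun l _ => Finset.sum_congr rfl fun k _ => by rw [hg.sy y k l]; ring
  simp only [mul_assoc] at e1 ⊢
  rw [e1]
  ring

theorem Kg.pd_X (hg : Met g) (h : Kg g K c a N X p y) (i k : Fin n) : pd i (X k) y =
    ∑ j, up g k j y * (a y i j - N y * K y i j) - ∑ l, chr g k i l y * X l y := by
  simp only [← h.dX, Finset.mul_sum, ← mul_assoc]
  rw [Finset.sum_comm]
  simp only [← Finset.sum_mul, hg.up_mul]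
  simp

/-- the symmetric part of the derivative of the covector of `X`, as a function of the state -/
def sS (g K : Field n) (i j : Fin n) (y : E n) (z : Vn n) : ℝ :=
  ∑ l, chr g l i j y * ∑ m, g y l m * z.2.1 m - z.1 * K y i j

/-- its derivative -/
def dS (g K : Field n) (k i j : Fin n) (y : E n) (z : Vn n) : ℝ :=
  ∑ l, (pd k (chr g l i j) y * ∑ m, g y l m * z.2.1 m +
    chr g l i j y * (z.2.2.2 k l + sS g K k l y z)) - ((z.2.2.1 k - ∑ m, K y k m * z.2.1 m) * K y i j + z.1 * pd k (fun w => K w i j) y)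

theorem cd_a (hg : Met g) (hK : ∀ i j, Smooth fun z => K z i j)
    (h : ∀ᶠ z in 𝓝 y, Kg g K c a N X p z) (i j : Fin n) : ContDiffAt ℝ ∞ (fun z => a z i j) y := by
  have k := h.self_of_nhds
  refine ((ContDiffAt.sum (s := Finset.univ) fun l _ => (hg.sm j l).contDiffAt.mul
    ((contDiffAt_pd (k.smX l) (k := ∞) (by simp) i).add (ContDiffAt.sum (s := Finset.univ)
      fun m _ => (hg.sm_chr l i m).contDiffAt.mul (k.smX m)))).add
      (k.smN.mul (hK i j).contDiffAt)).congr_of_eventuallyEq (h.mono fun z hz => ?_)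
  exact eq_add_of_sub_eq (hz.dX i j).symm

theorem pd_a (hg : Met g) (hK : ∀ i j, Smooth fun z => K z i j) (sK : ∀ z i j, K z i j = K z j i)
    (h : ∀ᶠ z in 𝓝 y, Kg g K c a N X p z) (k i j : Fin n) : pd k (fun z => a z i j) y =
      dS g K i k j y (ZZ a N X p y) - dS g K j k i y (ZZ a N X p y) := by
  have k0 := h.self_of_nhds
  have c1 := fun l => (cd_lo hg k0.smX l).of_le P366M.two_le_oo
  have da := fun i j => (cd_a hg hK h i j).differentiableAt (by simp)
  have dN := k0.smN.differentiableAt (by simp)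
  set S : Fin n → Fin n → E n → ℝ := fun i j z =>
    ∑ l, chr g l i j z * lo g X l z - N z * K z i j with hS
  have d1 : ∀ i j, DifferentiableAt ℝ (fun z => ∑ l, chr g l i j z * lo g X l z) y := fun i j =>
    DifferentiableAt.fun_sum fun l _ => ((hg.sm_chr l i j).diff y).fun_mul (diff2 (c1 l))
  have dS' : ∀ i j, DifferentiableAt ℝ (S i j) y := fun i j =>
    (d1 i j).fun_sub (dN.fun_mul ((hK i j).diff y))
  have e1 : ∀ k i j, pd k (S i j) y = dS g K k i j y (ZZ a N X p y) := fun k i j => by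
    rw [hS, pd_sub (d1 i j) (dN.fun_mul ((hK i j).diff y)),
      pd_sum _ fun l _ => ((hg.sm_chr l i j).diff y).fun_mul (diff2 (c1 l)),
      pd_mul dN ((hK i j).diff y), k0.dN]
    simp only [pd_mul ((hg.sm_chr _ _ _).diff y) (diff2 (c1 _)), k0.pd_lo hg]
    simp only [dS, sS, ZZ, lo]
    congr 1
    exact Finset.sum_congr rfl fun l _ => by ring
  have e2 : ∀ k i j, pd k (pd i (lo g X j)) y = pd k (fun z => a z i j) y + pd k (S i j) y :=
    fun k i j => by
      rw [← pd_add (da i j) (dS' i j)]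
      exact pd_congr (h.mono fun z hz => by rw [hz.pd_lo hg, hS]; ring) k
  have e3 : ∀ k i j, pd k (fun z => a z i j) y = -pd k (fun z => a z j i) y := fun k i j => by
    rw [← pd_neg]
    exact pd_congr (h.mono fun z hz => hz.sk i j) k
  have e4 : ∀ i j, S i j = S j i := fun i j => by
    simp only [hS, hg.chr_sy _ i j, sK _ i j]
  have f1 := pd_comm (c1 j) k i
  have f2 := pd_comm (c1 i) k j
  have f3 := pd_comm (c1 k) i j
  rw [e2, e2] at f1 f2 f3
  rw [← e1, ← e1]
  rw [e4 j i, e3 k j i] at f2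
  rw [e4 j k, e4 i k, e3 i j k, e3 j i k] at f3
  linarith

theorem sys_g (hg : Met g) (hK : ∀ i j, Smooth fun z => K z i j) (sK : ∀ z i j, K z i j = K z j i)
    (hc : ∀ i j k, Smooth (c i j k)) : ∃ A : E n → E n →L[ℝ] Vn n →L[ℝ] Vn n, ContDiff ℝ ∞ A ∧
      (∀ a N X p y, (∀ᶠ z in 𝓝 y, Kg g K c a N X p z) →
        HasFDerivAt (ZZ a N X p) ((A y).flip (ZZ a N X p y)) y) ∧
      (∀ y v z, (A y v z).1 = ∑ i, v i * (z.2.2.1 i - ∑ j, K y i j * z.2.1 j)) ∧
      ∀ y v z k, (A y v z).2.1 k = ∑ i, v i *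
        (∑ j, up g k j y * (z.2.2.2 i j - z.1 * K y i j) - ∑ l, chr g k i l y * z.2.1 l) := by
  have l1 : ∀ l, SL fun y (z : Vn n) => ∑ m, g y l m * z.2.1 m := fun l =>
    SL.sum fun m => SL.mul (hg.sm l m) (slX m)
  have l2 : ∀ i j, SL (sS g K i j) := fun i j =>
    (SL.sum fun l => SL.mul (hg.sm_chr l i j) (l1 l)).sub (slN.mul' (hK i j))
  have l0 : ∀ i, SL fun y (z : Vn n) => z.2.2.1 i - ∑ j, K y i j * z.2.1 j := fun i =>
    (slp i).sub (SL.sum fun j => SL.mul (hK i j) (slX j))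
  have l3 : ∀ k i j, SL (dS g K k i j) := fun k i j =>
    (SL.sum fun l => (SL.mul ((hg.sm_chr l i j).pd k) (l1 l)).add
      (SL.mul (hg.sm_chr l i j) ((sla k l).add (l2 k l)))).sub
      (((l0 k).mul' (hK i j)).add (slN.mul' ((hK i j).pd k)))
  have s1 : ∀ i l, Smooth fun y => P366Y.C.rc g y i l := fun i l =>
    ContDiff.sum fun j _ => ContDiff.add (ContDiff.sub ((hg.sm_chr j i l).pd j)
      ((hg.sm_chr j j l).pd i)) (ContDiff.sum fun k _ => ContDiff.sub
        (ContDiff.mul (hg.sm_chr _ _ _) (hg.sm_chr _ _ _))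
        (ContDiff.mul (hg.sm_chr _ _ _) (hg.sm_chr _ _ _)))
  have s2 : ∀ k i j, Smooth (cK g K k i j) := fun k i j => ContDiff.sub ((hK i j).pd k)
    (ContDiff.sum fun l _ => ContDiff.add (ContDiff.mul (hg.sm_chr _ _ _) (hK _ _))
      (ContDiff.mul (hg.sm_chr _ _ _) (hK _ _)))
  have s3 : Smooth (tr g K) := ContDiff.sum fun i _ => ContDiff.sum fun j _ =>
    ContDiff.mul (hg.sm_up i j) (hK i j)
  obtain ⟨A, hA, eA⟩ := exists_A l0
    (b1 := fun i k y z => ∑ j, up g k j y * (z.2.2.2 i j - z.1 * K y i j) -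
      ∑ l, chr g k i l y * z.2.1 l)
    (b2 := fun i j y z => ∑ l, chr g l i j y * z.2.2.1 l +
      (z.1 * (P366Y.C.rc g y i j + tr g K y * K y i j - ∑ k, ∑ l, up g k l y * K y i k * K y l j) +
      ∑ k, z.2.1 k * (cK g K i j k y - cK g K k i j y) -
      ∑ k, ∑ l, up g k l y * K y i k * z.2.2.2 j l + ∑ k, c i j k y * z.2.1 k))
    (b3 := fun k i j y z => dS g K i k j y z - dS g K j k i y z)
    (fun i k => (SL.sum fun j => SL.mul (hg.sm_up k j) ((sla i j).sub (slN.mul' (hK i j)))).sub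
      (SL.sum fun l => SL.mul (hg.sm_chr k i l) (slX l)))
    (fun i j => (SL.sum fun l => SL.mul (hg.sm_chr l i j) (slp l)).add
      ((((slN.mul' (ContDiff.sub (ContDiff.add (s1 i j) (ContDiff.mul s3 (hK i j)))
        (ContDiff.sum fun k _ => ContDiff.sum fun l _ =>
          ContDiff.mul (ContDiff.mul (hg.sm_up k l) (hK i k)) (hK l j)))).add
        (SL.sum fun k => (slX k).mul' (ContDiff.sub (s2 i j k) (s2 k i j)))).sub
        (SL.sum fun k => SL.sum fun l => SL.mul (ContDiff.mul (hg.sm_up k l) (hK i k))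
          (sla j l))).add (SL.sum fun k => SL.mul (hc i j k) (slX k))))
    fun k i j => (l3 i k j).sub (l3 j k i)
  refine ⟨A, hA, fun a N X p y h => ?_, fun y v z => by rw [eA], fun y v z k => by rw [eA]⟩
  have k0 := h.self_of_nhds
  refine has_ZZ (k0.smN.differentiableAt (by simp)) (fun i => (k0.smX i).differentiableAt (by simp))
    (fun i => (k0.smp i).differentiableAt (by simp))
    (fun i j => (cd_a hg hK h i j).differentiableAt (by simp)) fun v => ?_
  rw [ContinuousLinearMap.flip_apply, eA]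
  simp only [k0.dN, k0.pd_X hg, pd_a hg hK sK h, fun i j => eq_add_of_sub_eq' (k0.dp i j)]
  rfl

/-- **SYS** -/
theorem sys : SYS := fun _ _ _ hg hK sK => by
  obtain ⟨A, h1, h2, h3, h4⟩ := sys_g (c := fun _ _ _ _ => 0) hg hK sK fun _ _ _ => contDiff_const
  exact ⟨A, h1, fun a N X p y h => h2 a N X p y (h.mono fun _ => kg_of), h3, h4⟩

end Vale.Agent.P366SB
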