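import Vale.Agent.P366F.Defs
import Vale.Agent.P366SB.Kd

/-!
# P366SB: the jet of the multiplier solves a linear system; the bounds for the derivatives
-/

open Filter Topology Set
open scoped ContDiff
open Vale.Agent.P366.Stmt Vale.Agent.P366Z
open Vale.Agent.P366RB (lo)
open Vale.Agent.P366F
open Vale.Agent.P366P (cd)

noncomputable section

namespace Vale.Agent.P366SB

variable {n : ℕ} {ι : Type} [Fintype ι] {u : ι → E n → ℝ} {U : Set (E n)} {f h c : E n → ℝ}

/-- on `U` the function `f` is a combination of the functions `u` with smooth coefficients -/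
def Lj (u : ι → E n → ℝ) (U : Set (E n)) (f : E n → ℝ) : Prop :=
  ∃ a : ι → E n → ℝ, (∀ β, Smooth (a β)) ∧ ∀ y ∈ U, f y = ∑ β, a β y * u β y

theorem Lj.congr (hf : Lj u U f) (e : ∀ y ∈ U, h y = f y) : Lj u U h :=
  hf.imp fun _ k => ⟨k.1, fun y hy => (e y hy).trans (k.2 y hy)⟩

theorem Lj.add (hf : Lj u U f) (hh : Lj u U h) : Lj u U fun y => f y + h y := by
  obtain ⟨a, a1, a2⟩ := hf
  obtain ⟨b, b1, b2⟩ := hh
  exact ⟨fun β y => a β y + b β y, fun β => (a1 β).add (b1 β), fun y hy => by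
    simp only [a2 y hy, b2 y hy, add_mul, Finset.sum_add_distrib]⟩

theorem Lj.mul (hc : Smooth c) (hf : Lj u U f) : Lj u U fun y => c y * f y := by
  obtain ⟨a, a1, a2⟩ := hf
  exact ⟨fun β y => c y * a β y, fun β => hc.mul (a1 β), fun y hy => by
    simp only [a2 y hy, Finset.mul_sum, mul_assoc]⟩

theorem Lj.mul' (hf : Lj u U f) (hc : Smooth c) : Lj u U fun y => f y * c y :=
  (Lj.mul hc hf).congr fun _ _ => mul_comm _ _

theorem Lj.sub (hf : Lj u U f) (hh : Lj u U h) : Lj u U fun y => f y - h y :=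
  (hf.add (Lj.mul (c := fun _ => -1) contDiff_const hh)).congr fun _ _ => by ring

theorem Lj.sum {κ : Type} [Fintype κ] {F : κ → E n → ℝ} (hF : ∀ i, Lj u U (F i)) :
    Lj u U fun y => ∑ i, F i y := by
  choose a a1 a2 using hF
  exact ⟨fun β y => ∑ i, a i β y, fun β => ContDiff.sum fun i _ => a1 i β, fun y hy => by
    simp only [fun i => a2 i y hy, Finset.sum_mul]
    exact Finset.sum_comm⟩

theorem lj_self (β : ι) : Lj u U (u β) := by
  classical
  exact ⟨fun γ _ => if γ = β then 1 else 0, fun _ => contDiff_const, fun y _ => by simp⟩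

theorem Lj.cd (hU : IsOpen U) (hu : ∀ β, ∀ y ∈ U, ContDiffAt ℝ ∞ (u β) y) (hf : Lj u U f) :
    ∀ y ∈ U, ContDiffAt ℝ ∞ f y := fun y hy => by
  obtain ⟨a, a1, a2⟩ := hf
  exact (ContDiffAt.sum fun β _ => (a1 β).contDiffAt.mul (hu β y hy)).congr_of_eventuallyEq
    (eventually_of_mem (hU.mem_nhds hy) a2)

theorem Lj.pd {κ : Type} [Fintype κ] {v : κ → E n → ℝ} (hU : IsOpen U)
    (hu : ∀ β, ∀ y ∈ U, ContDiffAt ℝ ∞ (u β) y) (h0 : ∀ β, Lj v U (u β))
    (h1 : ∀ β i, Lj v U (pd i (u β))) (hf : Lj u U f) (i : Fin n) : Lj v U (pd i f) := by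
  obtain ⟨a, a1, a2⟩ := hf
  refine (Lj.sum fun β => (Lj.mul ((a1 β).pd i) (h0 β)).add (Lj.mul (a1 β) (h1 β i))).congr
    fun y hy => ?_
  have d := fun β => (hu β y hy).differentiableAt (by simp)
  rw [pd_congr (eventually_of_mem (hU.mem_nhds hy) a2),
    pd_sum _ fun β _ => ((a1 β).diff y).fun_mul (d β)]
  exact Finset.sum_congr rfl fun β _ => pd_mul ((a1 β).diff y) (d β) i

theorem Lj.bd {C : Set (E n)} (hC : IsCompact C) (hU : IsOpen U)
    (hu : ∀ β, ∀ y ∈ U, ContDiffAt ℝ ∞ (u β) y) (h1 : ∀ β i, Lj u U (P366.Stmt.pd i (u β)))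
    (h0 : ∀ β, ∃ B, ∀ y ∈ C, y ∈ U → |u β y| ≤ B) (k : ℕ) :
    ∀ f, Lj u U f → ∃ B, ∀ y ∈ C, y ∈ U → ‖iteratedFDeriv ℝ k f y‖ ≤ B := by
  induction k with
  | zero =>
    rintro f ⟨a, a1, a2⟩
    choose B hB using h0
    choose A hA using fun β => hC.exists_bound_of_continuousOn (a1 β).cont.continuousOn
    refine ⟨∑ β, A β * B β, fun y hy k => ?_⟩
    rw [norm_iteratedFDeriv_zero, a2 y k]
    refine (norm_sum_le _ _).trans (Finset.sum_le_sum fun β _ => ?_)
    rw [norm_mul]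
    exact mul_le_mul (hA β y hy) (hB β y hy k) (norm_nonneg _) ((norm_nonneg _).trans (hA β y hy))
  | succ k ih =>
    intro f hf
    choose B hB using fun i => ih _ (hf.pd hU hu lj_self h1 i)
    have s0 := hf.cd hU hu
    refine ⟨∑ i, B i * ‖(EuclideanSpace.proj i : E n →L[ℝ] ℝ)‖, fun y hy l => ?_⟩
    have e : fderiv ℝ f =ᶠ[𝓝 y] fun z => ∑ i, (ContinuousLinearMap.toSpanSingleton ℝ
        (EuclideanSpace.proj i : E n →L[ℝ] ℝ) ∘ P366.Stmt.pd i f) z :=
      eventually_of_mem (hU.mem_nhds l) fun z hz => ContinuousLinearMap.ext fun v => by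
        simp [fderiv_eq_sum ((s0 z hz).differentiableAt (by simp)), mul_comm]
    have s1 : ∀ i, ContDiffAt ℝ k (P366.Stmt.pd i f) y := fun i =>
      contDiffAt_pd (s0 y l) (by exact_mod_cast le_top) i
    rw [← norm_iteratedFDeriv_fderiv, (e.iteratedFDeriv ℝ k).self_of_nhds,
      iteratedFDeriv_fun_sum_apply fun i _ =>
        (ContinuousLinearMap.contDiff _).contDiffAt.comp y (s1 i)]
    refine (norm_sum_le _ _).trans (Finset.sum_le_sum fun i _ => ?_)
    refine (ContinuousLinearMap.norm_iteratedFDeriv_comp_left _ (s1 i) le_rfl).trans ?_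
    rw [ContinuousLinearMap.norm_toSpanSingleton, mul_comm]
    exact mul_le_mul_of_nonneg_right (hB i y hy l) (norm_nonneg _)

variable {g K : Field n} {N : E n → ℝ} {X : Fin n → E n → ℝ}

theorem pd_lo' (hg : Met g) {y : E n} (hX : ∀ i, DifferentiableAt ℝ (X i) y) (i j : Fin n) :
    pd i (lo g X j) y = ∑ k, g y j k * cd g X k i y + ∑ l, chr g l i j y * lo g X l y := by
  unfold lo cd
  rw [pd_sum _ fun k _ => ((hg.sm j k).diff y).fun_mul (hX k)]
  simp only [pd_mul ((hg.sm _ _).diff y) (hX _), hg.pd_g i j, mul_add, add_mul,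
    Finset.sum_add_distrib, Finset.mul_sum, Finset.sum_mul]
  rw [Finset.sum_comm (f := fun k l => g y k l * chr g l i j y * X k y),
    Finset.sum_comm (f := fun k l => g y j l * chr g l i k y * X k y)]
  have e1 : ∑ l, ∑ k, g y k l * chr g l i j y * X k y =
      ∑ l, ∑ k, chr g l i j y * (g y l k * X k y) :=
    Finset.sum_congr rfl fun l _ => Finset.sum_congr rfl fun k _ => by rw [hg.sy y k l]; ring
  simp only [mul_assoc] at e1 ⊢
  rw [e1]
  ring

theorem cd_jet {y : E n} (h : Kq g K N X y) (α : Option (Fin n) × Option (Fin n)) :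
    ContDiffAt ℝ ∞ (jet N X α) y := by
  rcases α with ⟨_ | k, _ | i⟩
  · exact h.smN
  · exact contDiffAt_pd h.smN (by simp) i
  · exact h.smX k
  · exact contDiffAt_pd (h.smX k) (by simp) i

theorem lj_jet (hg : Met g) (hK : ∀ i j, Smooth fun z => K z i j) (hJ : ∀ j, Smooth (mom g K j))
    (hU : IsOpen U) (h : ∀ y ∈ U, Kq g K N X y) (α : Option (Fin n) × Option (Fin n)) (i : Fin n) :
    Lj (jet N X) U (pd i (jet N X α)) := by
  have jN : Lj (jet N X) U N := lj_self (u := jet N X) (none, none)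
  have jX : ∀ k, Lj (jet N X) U (X k) := fun k => lj_self (u := jet N X) (some k, none)
  have jN' : ∀ i, Lj (jet N X) U (pd i N) := fun i => lj_self (u := jet N X) (none, some i)
  have jX' : ∀ k i, Lj (jet N X) U (pd i (X k)) := fun k i =>
    lj_self (u := jet N X) (some k, some i)
  have jc : ∀ k i, Lj (jet N X) U (cd g X k i) := fun k i =>
    (jX' k i).add (Lj.sum fun l => Lj.mul (hg.sm_chr k i l) (jX l))
  have jl : ∀ k, Lj (jet N X) U (lo g X k) := fun k => Lj.sum fun l => Lj.mul (hg.sm k l) (jX l)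
  have P : ∀ {f}, Lj (fun α => jet N X (α, none)) U f → ∀ i, Lj (jet N X) U (pd i f) :=
    fun hf i => hf.pd hU (fun β y hy => cd_jet (h y hy) _) (fun β => lj_self (u := jet N X) _)
      (fun β i => by
        rcases β with _ | k
        exacts [jN' i, jX' k i]) i
  have kN : Lj (fun α => jet N X (α, none)) U N := lj_self (u := fun α => jet N X (α, none)) none
  have kX : ∀ k, Lj (fun α => jet N X (α, none)) U (X k) := fun k =>
    lj_self (u := fun α => jet N X (α, none)) (some k)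
  rcases α with ⟨_ | k, _ | j⟩
  · exact jN' i
  · have s1 : ∀ i l, Smooth fun y => P366Y.C.rc g y i l := fun i l =>
      ContDiff.sum fun j _ => ContDiff.add (ContDiff.sub ((hg.sm_chr j i l).pd j)
        ((hg.sm_chr j j l).pd i)) (ContDiff.sum fun k _ => ContDiff.sub
          (ContDiff.mul (hg.sm_chr _ _ _) (hg.sm_chr _ _ _))
          (ContDiff.mul (hg.sm_chr _ _ _) (hg.sm_chr _ _ _)))
    have s2 : ∀ k i j, Smooth (P366XR.cT g K k i j) := fun k i j => ContDiff.sub ((hK i j).pd k)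
      (ContDiff.sum fun l _ => ContDiff.add (ContDiff.mul (hg.sm_chr _ _ _) (hK _ _))
        (ContDiff.mul (hg.sm_chr _ _ _) (hK _ _)))
    have s3 : Smooth (tr g K) := ContDiff.sum fun i _ => ContDiff.sum fun j _ =>
      ContDiff.mul (hg.sm_up i j) (hK i j)
    have s4 : Smooth fun y => P366Y.C.rc g y i j + tr g K y * K y i j -
        2 * ∑ k, ∑ l, K y i k * up g k l y * K y l j :=
      ContDiff.sub (ContDiff.add (s1 i j) (ContDiff.mul s3 (hK i j))) (contDiff_const.mul
        (ContDiff.sum fun k _ => ContDiff.sum fun l _ =>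
          ContDiff.mul (ContDiff.mul (hK i k) (hg.sm_up k l)) (hK l j)))
    refine ((((Lj.sum fun k => Lj.mul (hg.sm_chr k i j) (jN' k)).sub (Lj.sum fun k =>
      (((jX k).mul' (s2 k i j)).add (Lj.mul (hK k j) (jc k i))).add (Lj.mul (hK i k) (jc k j)))).add
      (jN.mul' s4)).add ((((jl i).mul' (hJ j)).add ((jl j).mul' (hJ i))).mul'
        (c := fun _ => 2⁻¹) contDiff_const)).congr fun y hy => ?_
    have e := (h y hy).ee i j
    rw [P366XR.EE, hess] at e
    change pd i (pd j N) y = _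
    linarith
  · exact jX' k i
  · set S : Fin n → Fin n → E n → ℝ := fun i j z =>
      ∑ l, chr g l i j z * lo g X l z - K z i j * N z with hS
    have jS : ∀ k i j, Lj (jet N X) U (pd k (S i j)) := fun k i j =>
      P ((Lj.sum fun l => Lj.mul (hg.sm_chr l i j)
        (Lj.sum fun m => Lj.mul (hg.sm l m) (kX m))).sub (Lj.mul (hK i j) kN)) k
    have c1 : ∀ y ∈ U, ∀ l, ContDiffAt ℝ 2 (lo g X l) y := fun y hy l =>
      (cd_lo hg (h y hy).smX l).of_le P366M.two_le_oo
    have e2 : ∀ y ∈ U, ∀ k i j, pd k (pd i (lo g X j)) y + pd k (pd j (lo g X i)) y =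
        2 * pd k (S i j) y := fun y hy k i j => by
      rw [← pd_add (diffAt_pd (c1 y hy j) i) (diffAt_pd (c1 y hy i) j), ← pd_const_mul]
      refine pd_congr (eventually_of_mem (hU.mem_nhds hy) fun z hz => ?_) k
      have d := fun k => ((h z hz).smX k).differentiableAt (by simp)
      have e := (h z hz).kil i j
      rw [Finset.sum_add_distrib] at e
      simp only [pd_lo' hg d, hS, hg.chr_sy _ j i]
      linarith
    have j2 : ∀ k i j, Lj (jet N X) U (pd k (pd i (lo g X j))) := fun k i j =>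
      (((jS k i j).add (jS i k j)).sub (jS j k i)).congr fun y hy => by
        have f1 := e2 y hy k i j
        have f2 := e2 y hy i k j
        have f3 := e2 y hy j k i
        rw [pd_comm (c1 y hy j) i k] at f2
        rw [pd_comm (c1 y hy i) j k, pd_comm (c1 y hy k) j i] at f3
        linarith
    have e3 : ∀ y ∈ U, pd j (X k) y =
        ∑ m, (pd j (up g k m) y * lo g X m y + up g k m y * pd j (lo g X m) y) := fun y hy => by
      have e : X k = fun z => ∑ m, up g k m z * lo g X m z := funext fun z => by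
        simp only [lo, Finset.mul_sum, ← mul_assoc]
        rw [Finset.sum_comm]
        simp only [← Finset.sum_mul, hg.up_mul]
        simp
      conv_lhs => rw [e]
      rw [pd_sum _ fun m _ => ((hg.sm_up k m).diff y).fun_mul (diff2 (c1 y hy m))]
      exact Finset.sum_congr rfl fun m _ => pd_mul ((hg.sm_up k m).diff y) (diff2 (c1 y hy m)) j
    have jl' : ∀ m i, Lj (jet N X) U (pd i (lo g X m)) := fun m i =>
      P (Lj.sum fun l => Lj.mul (hg.sm m l) (kX l)) i
    refine (Lj.sum fun m => ((Lj.mul (((hg.sm_up k m).pd j).pd i) (jl m)).add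
      (Lj.mul ((hg.sm_up k m).pd j) (jl' m i))).add ((Lj.mul ((hg.sm_up k m).pd i) (jl' m j)).add
      (Lj.mul (hg.sm_up k m) (j2 i j m)))).congr fun y hy => ?_
    have d1 := fun m => (((hg.sm_up k m).pd j).diff y).fun_mul (diff2 (c1 y hy m))
    have d2 := fun m => ((hg.sm_up k m).diff y).fun_mul (diffAt_pd (c1 y hy m) j)
    change pd i (pd j (X k)) y = _
    rw [pd_congr (eventually_of_mem (hU.mem_nhds hy) e3), pd_sum _ fun m _ => (d1 m).fun_add (d2 m)]
    refine Finset.sum_congr rfl fun m _ => ?_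
    rw [pd_add (d1 m) (d2 m), pd_mul (((hg.sm_up k m).pd j).diff y) (diff2 (c1 y hy m)),
      pd_mul ((hg.sm_up k m).diff y) (diffAt_pd (c1 y hy m) j)]

/-- **SYS** -/
theorem sysF : P366F.SYS := by
  intro n M _ Z _ hZ e he
  have hJ : ∀ j, Smooth (mom (Z.g e) (Z.K e) j) := fun j => by
    rw [← P366M.repC_mom Z.D.met he Z.D.smK]
    exact Z.D.met.sm_mom Z.D.smK e he j
  choose A h1 h2 using fun i α => lj_jet (U := e.symm ⁻¹' Z.U) (Z.D.met.rep he) (Z.D.smK e he) hJ
    (hZ.op.preimage (P366M.cont_symm he)) (hZ.eq e he) α i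
  exact ⟨A, h1, fun y hy i α => h2 i α y hy⟩

theorem lip_bd {s C : Set (E n)} (hC : IsCompact C) (hs : IsClosed s)
    (hf : LocallyLipschitzOn s f) : ∃ B, ∀ y ∈ C, s ∈ 𝓝 y → DifferentiableAt ℝ f y →
      |f y| ≤ B ∧ ∀ i, |pd i f y| ≤ B := by
  have h0 := hC.inter_right hs
  obtain ⟨A, hA⟩ := h0.exists_bound_of_continuousOn (hf.continuousOn.mono inter_subset_right)
  obtain ⟨L, hL⟩ : ∃ L : NNReal, ∀ y ∈ C ∩ s, ∃ t ∈ 𝓝[s] y, LipschitzOnWith L f t := by
    refine h0.induction_on (p := fun t => ∃ L : NNReal, ∀ y ∈ t, ∃ t ∈ 𝓝[s] y,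
      LipschitzOnWith L f t) ⟨0, by simp⟩ (fun a b hab ⟨L, k⟩ => ⟨L, fun y hy => k y (hab hy)⟩)
      (fun a b ⟨L, k⟩ ⟨L', k'⟩ => ⟨max L L', fun y hy => hy.elim
        (fun l => (k y l).imp fun t ht => ⟨ht.1, ht.2.weaken (le_max_left _ _)⟩)
        fun l => (k' y l).imp fun t ht => ⟨ht.1, ht.2.weaken (le_max_right _ _)⟩⟩) fun y hy => ?_
    obtain ⟨L, t, k1, k2⟩ := hf hy.2
    exact ⟨{z | t ∈ 𝓝[s] z}, nhdsWithin_mono _ inter_subset_right
      (eventually_mem_nhdsWithin_iff.2 k1), L, fun z hz => ⟨t, hz, k2⟩⟩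
  refine ⟨max A L, fun y hy k d => ⟨(hA y ⟨hy, mem_of_mem_nhds k⟩).trans (le_max_left _ _),
    fun i => ?_⟩⟩
  obtain ⟨t, k1, k2⟩ := hL y ⟨hy, mem_of_mem_nhds k⟩
  rw [nhdsWithin_eq_nhds.2 k] at k1
  exact ((abs_pd_le d i).trans (norm_fderiv_le_of_lipschitzOn ℝ k1 k2)).trans (le_max_right _ _)

/-- **BND** -/
theorem bnd : P366F.BND := by
  intro n M _ Z _ hZ hs e he C k hC
  obtain ⟨A, h1, h2⟩ := hs e he
  have hU := hZ.op.preimage (P366M.cont_symm he)
  have c0 : Continuous fun y => Z.D.F (e.symm y) := P366M.cont_loc he Z.D.dom.1.cont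
  have h3 : ∀ y ∈ e.symm ⁻¹' Z.U, Z.Om e ∈ 𝓝 y := fun y hy =>
    mem_of_superset (hU.mem_nhds hy) fun z hz => (hZ.sub _ hz).le
  have H := Lj.bd (u := jet (Z.Nc e) (Z.Xc e)) hC hU (fun β y hy => cd_jet (hZ.eq e he y hy) β)
    (fun β i => ⟨A i β, h1 i β, fun y hy => h2 y hy i β⟩) (fun β => by
      obtain ⟨B, hB⟩ := lip_bd hC (isClosed_le continuous_const c0) (hZ.lipN e he)
      have k1 := fun y hy l => hB y hy (h3 y l)
        ((hZ.eq e he y l).smN.differentiableAt (by simp))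
      choose B' hB' using fun i => lip_bd hC (isClosed_le continuous_const c0) (hZ.lipX e he i)
      have k2 := fun i y hy l => hB' i y hy (h3 y l)
        (((hZ.eq e he y l).smX i).differentiableAt (by simp))
      rcases β with ⟨_ | k, _ | i⟩
      exacts [⟨B, fun y hy l => (k1 y hy l).1⟩, ⟨B, fun y hy l => (k1 y hy l).2 i⟩,
        ⟨B' k, fun y hy l => (k2 k y hy l).1⟩, ⟨B' k, fun y hy l => (k2 k y hy l).2 i⟩]) k
  obtain ⟨B, hB⟩ := H _ (lj_self (none, none))
  choose B' hB' using fun i => H _ (lj_self (some i, none))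
  obtain ⟨B'', hB''⟩ := (Set.finite_range B').bddAbove
  exact ⟨max B B'', fun y hy l => ⟨(hB y hy l).trans (le_max_left _ _),
    fun i => ((hB' i y hy l).trans (hB'' ⟨i, rfl⟩)).trans (le_max_right _ _)⟩⟩

end Vale.Agent.P366SB
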