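import Vale.Agent.P366SB.Src0
import Vale.Agent.P366K3.Cf
import Vale.Agent.P366DB.Defs
import Vale.Agent.P366M.Apx

/-!
# P366SB: the divergence of `p` is the source
-/

set_option linter.all false

open MeasureTheory Metric Filter Topology Set
open scoped ContDiff
open Vale.Agent.P366.Stmt Vale.Agent.P366Z

noncomputable section

namespace Vale.Agent.P366SB

variable {n : ℕ} {g K : Field n} {F N φ : E n → ℝ} {X : Fin n → E n → ℝ}

theorem src_lip (hg : Met g) (hF : Smooth F) (hr : ∀ y, F y = 0 → ∃ i, pd i F y ≠ 0)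
    (h0 : ∀ᵐ y, F y ≠ 0) (hK : ∀ i j, Smooth fun y => K y i j) (sy : ∀ y i j, K y i j = K y j i)
    (hN : Lip N) (cN : HasCompactSupport N) (hX : ∀ i, Continuous (X i))
    (cX : ∀ i, HasCompactSupport (X i)) (hφ : Smooth φ) (hc : HasCompactSupport φ)
    {Λ : (E n → ℝ) → ℝ} {A : ℝ}
    (h1 : ∀ u, Smooth u → (∀ y ∉ tsupport φ, u y = 0) → (∀ y, F y = 0 → ip g F u y = 0) →
      Λ u = ∫ y in {y | 0 ≤ F y},
        (N y * lap g u y - ∑ j, X j y * ∑ a, K y j a * gr g u a y) * dens g y)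
    (h2 : ∀ u c, Smooth u → (∀ y ∉ tsupport φ, u y = 0) → (∀ y, |u y - φ y| ≤ c) →
      |Λ u - Λ φ| ≤ A * c) :
    -∫ y in {y | 0 ≤ F y}, (∑ i, P366F.pp K N X i y * gr g φ i y) * dens g y = Λ φ := by
  have hd := hg.sm_dens.cont
  obtain ⟨χ, hχ, c0, c1⟩ := exists_apx hg hF hr hφ
  obtain ⟨B, hB⟩ := hχ.cont.bounded_above_of_compact_support (HasCompactSupport.intro hc c0)
  obtain ⟨P, hP⟩ : ∃ P : (Fin n → E n → ℝ) → E n → ℝ, ∀ Y y,
      P Y y = (∑ i, P366F.pp K N X i y * Y i y) * dens g y := ⟨_, fun _ _ => rfl⟩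
  have e1 : ∀ Y y, P Y y = (∑ i, pd i N y * Y i y) * dens g y +
      (∑ j, X j y * ∑ a, K y j a * Y a y) * dens g y := fun Y y => by
    simp only [hP, P366F.pp, add_mul, Finset.sum_add_distrib, Finset.mul_sum]
    rw [Finset.sum_comm (f := fun j a => X j y * _)]
    congr 2
    refine Finset.sum_congr rfl fun i _ => ?_
    rw [Finset.sum_mul]
    exact Finset.sum_congr rfl fun j _ => by rw [sy y i j]; ring
  have i1 : ∀ Y : Fin n → E n → ℝ, (∀ i, Continuous (Y i)) →
      Integrable fun y => (∑ j, X j y * ∑ a, K y j a * Y a y) * dens g y := fun Y hY => by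
    simp only [Finset.sum_mul (s := Finset.univ) (f := fun j => X j _ * _)]
    exact integrable_finsetSum _ fun j _ => (((hX j).mul (continuous_finsetSum _ fun a _ =>
      (hK j a).cont.mul (hY a))).mul hd).integrable_of_hasCompactSupport (cX j).mul_right.mul_right
  have i2 : ∀ Y : Fin n → E n → ℝ, (∀ i, Continuous (Y i)) → Integrable (P Y) := fun Y hY =>
    funext (e1 Y) ▸ (int_dot hN cN hY hd).add (i1 Y hY)
  have su : ∀ δ, 0 < δ → Smooth fun y => φ y - bp δ (F y) * χ y := fun δ h =>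
    hφ.sub (((bp_sm h).comp hF).mul hχ)
  have zu : ∀ δ, ∀ y ∉ tsupport φ, φ y - bp δ (F y) * χ y = 0 := fun δ y hy => by
    rw [c0 y hy, image_eq_zero_of_notMem_tsupport hy, mul_zero, sub_zero]
  have k : ∀ δ, 0 < δ → Λ (fun y => φ y - bp δ (F y) * χ y) =
      -∫ y in {y | 0 ≤ F y}, P (gr g fun y => φ y - bp δ (F y) * χ y) y := fun δ h => by
    obtain ⟨G, hG, e⟩ := (c1 δ h).2
    have s := hg.sm_gr (su δ h)
    have t : Integrable fun y => N y * lap g (fun y => φ y - bp δ (F y) * χ y) y * dens g y :=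
      ((hN.cont.mul (hg.sm_lap (su δ h)).cont).mul hd).integrable_of_hasCompactSupport
        cN.mul_right.mul_right
    rw [h1 _ (su δ h) (zu δ) fun y hy => by rw [ip_eq_gr, e, hy, zero_mul]]
    simp only [e1, sub_mul]
    rw [integral_add (int_dot hN cN (fun i => (s i).cont) hd).integrableOn
      (i1 _ fun i => (s i).cont).integrableOn, integral_sub t.integrableOn
      (i1 _ fun i => (s i).cont).integrableOn, lap, ibp_om hg hF h0 hN cN s hG e]
    ring
  have j1 := i2 _ fun i => (hg.sm_gr hφ i).cont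
  have j2 := i2 (fun i y => χ y * gr g F i y) fun i => hχ.cont.mul (hg.sm_gr hF i).cont
  have j3 := i2 _ fun i => (hg.sm_gr hχ i).cont
  have e2 : ∀ δ, 0 < δ → ∀ y, P (gr g fun y => φ y - bp δ (F y) * χ y) y = P (gr g φ) y -
      bq δ (F y) * P (fun i y => χ y * gr g F i y) y - bp δ (F y) * P (gr g χ) y := fun δ h y => by
    simp only [hP, (c1 δ h).1]
    simp only [mul_sub, sub_mul, Finset.sum_sub_distrib, mul_left_comm _ (bq δ _),
      mul_left_comm _ (bp δ _), ← Finset.mul_sum, mul_assoc]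
  have l1 : Tendsto (fun δ => ∫ y in {y | 0 ≤ F y}, P (gr g fun y => φ y - bp δ (F y) * χ y) y)
      (𝓝[>] 0) (𝓝 (∫ y in {y | 0 ≤ F y}, P (gr g φ) y)) := by
    refine tendsto_integral_filter_of_dominated_convergence (fun y => ‖P (gr g φ) y‖ +
      ‖P (fun i y => χ y * gr g F i y) y‖ + ‖P (gr g χ) y‖) (eventually_mem_nhdsWithin.mono
        fun δ h => (i2 _ fun i => (hg.sm_gr (su δ h) i).cont).aestronglyMeasurable.restrict)
      (Eventually.mono (Ioo_mem_nhdsGT one_pos) fun δ h => .of_forall fun y => ?_)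
      ((j1.norm.add j2.norm).add j3.norm).integrableOn
      ((ae_restrict_of_ae h0).mono fun y hy => ?_)
    · rw [e2 δ h.1]
      refine (norm_sub_le _ _).trans (add_le_add ((norm_sub_le _ _).trans
        (add_le_add le_rfl ?_)) ?_) <;> rw [norm_mul]
      · exact mul_le_of_le_one_left (norm_nonneg _) (bq_le h.1 _)
      · exact mul_le_of_le_one_left (norm_nonneg _) ((bp_le h.1 _).trans h.2.le)
    · have := ((tendsto_const_nhds (x := P (gr g φ) y)).sub ((bq_lim hy).mul_const
        (P (fun i y => χ y * gr g F i y) y))).sub ((bp_lim (F y)).mul_const (P (gr g χ) y))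
      simp only [zero_mul, sub_zero] at this
      exact this.congr' (eventually_mem_nhdsWithin.mono fun δ h => (e2 δ h y).symm)
  have l2 : Tendsto (fun δ => Λ (fun y => φ y - bp δ (F y) * χ y)) (𝓝[>] 0) (𝓝 (Λ φ)) := by
    rw [tendsto_iff_norm_sub_tendsto_zero]
    refine squeeze_zero' (.of_forall fun _ => norm_nonneg _) (g := fun δ => A * (δ * B))
      (eventually_mem_nhdsWithin.mono fun δ h => h2 _ _ (su δ h) (zu δ) fun y => ?_) ?_
    · rw [sub_sub_cancel_left, abs_neg, abs_mul]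
      exact mul_le_mul (bp_le h _) (hB y) (abs_nonneg _) (le_of_lt h)
    · simpa using ((tendsto_id.mono_left (nhdsWithin_le_nhds (a := (0 : ℝ)) (s := Ioi 0))
        ).mul_const B).const_mul A
  simp only [← hP]
  exact tendsto_nhds_unique (l := 𝓝[>] (0 : ℝ)) (l1.neg.congr'
    (eventually_mem_nhdsWithin.mono fun δ h => (k δ h).symm)) l2

theorem src_chart (hg : Met g) (hF : Smooth F) (hr : ∀ y, F y = 0 → ∃ i, pd i F y ≠ 0)
    (h0 : ∀ᵐ y, F y ≠ 0) (hK : ∀ i j, Smooth fun y => K y i j) (sy : ∀ y i j, K y i j = K y j i)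
    (hN : LocallyLipschitzOn {y | 0 ≤ F y} N) (hX : ∀ i, LocallyLipschitzOn {y | 0 ≤ F y} (X i))
    (hφ : Smooth φ) (hc : HasCompactSupport φ) {Λ : (E n → ℝ) → ℝ} {A : ℝ}
    (h1 : ∀ u, Smooth u → (∀ y ∉ tsupport φ, u y = 0) → (∀ y, F y = 0 → ip g F u y = 0) →
      Λ u = ∫ y in {y | 0 ≤ F y},
        (N y * lap g u y - ∑ j, X j y * ∑ a, K y j a * gr g u a y) * dens g y)
    (h2 : ∀ u c, Smooth u → (∀ y ∉ tsupport φ, u y = 0) → (∀ y, |u y - φ y| ≤ c) →
      |Λ u - Λ φ| ≤ A * c) :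
    -∫ y in {y | 0 ≤ F y}, (∑ i, ∑ j, up g i j y * P366F.pp K N X i y * pd j φ y) * dens g y = Λ φ := by
  have cl : IsClosed {y | 0 ≤ F y} := isClosed_le continuous_const hF.cont
  obtain ⟨R, hR⟩ := hc.isBounded.subset_ball 0
  obtain ⟨N', a1, a2, a3⟩ := ext_lip cl hN (R := max R 1) (by positivity)
  choose X' b1 b2 b3 using fun i => ext_lip cl (hX i) (R := max R 1) (by positivity)
  have r : ∀ y ∈ tsupport φ, ‖y‖ < max R 1 := fun y hy =>
    (mem_ball_zero_iff.1 (hR hy)).trans_le (le_max_left _ _)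
  have z : ∀ {u : E n → ℝ}, (∀ y ∉ tsupport φ, u y = 0) → ∀ y ∉ tsupport φ,
      u =ᶠ[𝓝 y] fun _ => 0 := fun h y hy =>
    Eventually.mono ((isClosed_tsupport φ).isOpen_compl.mem_nhds hy) h
  rw [← src_lip hg hF hr h0 hK sy a1 a2 (fun i => (b1 i).cont) b2 hφ hc (Λ := Λ) (A := A)
    (fun u k1 k2 k3 => (h1 u k1 k2 k3).trans (setIntegral_congr_fun cl.measurableSet
      fun y hy => ?_)) h2]
  · refine congrArg Neg.neg (integral_congr_ae ?_)
    filter_upwards [ae_restrict_of_ae h0, ae_restrict_mem cl.measurableSet] with y k1 k2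
    by_cases hy : y ∈ tsupport φ
    · have e : N' =ᶠ[𝓝 y] N := by
        filter_upwards [(isOpen_lt continuous_norm continuous_const).mem_nhds (r y hy),
          (isOpen_lt continuous_const hF.cont).mem_nhds (lt_of_le_of_ne k2 k1.symm)] with w l1 l2
        exact a3 w (le_of_lt l2) (le_of_lt l1)
      simp only [P366F.pp, pd_congr e, fun i => b3 i y k2 (r y hy).le, gr, Finset.mul_sum]
      congr 1
      exact Finset.sum_congr rfl fun i _ => Finset.sum_congr rfl fun j _ => by ring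
    · simp [gr, pd_congr (notMem_tsupport_iff_eventuallyEq.1 hy), Pi.zero_def, pd_const]
  · by_cases k : y ∈ tsupport φ
    · simp only [a3 y hy (r y k).le, fun i => b3 i y hy (r y k).le]
    · simp [gr, pd_congr (z k2 y k), lap_congr (z k2 y k), pd_const, lap_const]

open Vale.Agent.P366M (At zx loc rep repV loc_zx cd_zx supp_zx zx_symm) in
/-- **SRC** -/
theorem src (hC : P366K.C.CONF) (hR : P366K.REP) : P366DB.SRC := by
  intro n M _ Z m P κ R1 R2 ε c l Zc W _ π ν α β η hE H G e he φ hφ hc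
  have hg := Z.D.met
  have hF := Z.D.dom.1
  have := H.fβ
  have i1 : ∀ u : E n → ℝ, Smooth u → (∀ y ∉ tsupport φ, u y = 0) →
      Integrable (fun w => zx e u (π w)) β := fun u k1 k2 => by
    have a := (cd_zx le_rfl he hc k2 k1).continuous
    obtain ⟨B, hB⟩ := a.bounded_above_of_compact_support (supp_zx he hc k2)
    exact .of_bound (a.measurable.comp H.mπ).aestronglyMeasurable B (.of_forall fun w => hB _)
  refine src_chart (F := loc e Z.D.F) (Λ := fun u => ∫ w, zx e u (π w) ∂β) (A := β.real univ)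
    (hg.rep he) (hF e he) (fun y hy => ?_) ?_ (Z.D.smK e he) (P366M.rep_sy Z.D.syK e)
    (G.lip e he).1 (G.lip e he).2 hφ hc (fun u k1 k2 k3 => ?_) fun u b k1 k2 k3 => ?_
  · by_contra k
    obtain ⟨i, hi⟩ := Z.D.dom.2.1 _ hy
    have a := hg.up_pos (e.symm y) (ξ := fun i => P366M.pd i Z.D.F (e.symm y))
      fun l => hi (congrFun l i)
    have b := P366M.ip_rep he Z.D.g (hF.diff (e.symm y)) (hF.diff _)
    simp only [not_exists, not_not] at k
    simp only [ip, k, mul_zero, Finset.sum_const_zero] at b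
    exact a.ne b
  · refine P366M.ae_loc hg he (p := fun x => Z.D.F x ≠ 0) ?_
    filter_upwards [hF.llip.ae_pd_zero' Z.D.g 0] with x k1 k2
    obtain ⟨i, hi⟩ := Z.D.dom.2.1 x k2
    exact hi (k1 k2 i)
  · have hU : P366M.Smooth (zx e u) := cd_zx le_rfl he hc k2 k1
    have ts := P366M.tsupport_zx he hc k2
    obtain ⟨R, -, r⟩ := P366M.bdd_px (P366M.cpt_image he hc)
    have a := (P366K3.id_cf hC hR (by linarith [hE.n3]) hE.mar H G hU (P366K3.var_cf hU (R := R + 1)
      (fun x hx => P366M.zx_zero k2 fun l => by linarith [r x l]) ε)).2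
    have o : ∀ x ∉ e.source, zx e u =ᶠ[𝓝 x] fun _ => 0 := fun x hx =>
      notMem_tsupport_iff_eventuallyEq.1 fun l => hx (P366M.image_sub he _ (ts l))
    have b : ∫ x, ∑ a, P366M.nrm Z.D.g Z.D.F a x * P366M.pd a (zx e u) x ∂η = 0 := by
      refine integral_eq_zero_of_ae (H.sη.mono fun x hx => ?_)
      by_cases l : x ∈ e.source
      · obtain ⟨y, rfl⟩ := P366M.range_symm he ▸ l
        have := P366M.ip_rep he Z.D.g (hF.diff (e.symm y)) (hU.diff _)
        rw [loc_zx he, k3 y hx, hg.ip_sy, P366M.ip_eq_gr] at this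
        simp only [P366M.nrm, mul_comm _ (P366M.pd _ (zx e u) _), ← mul_div_assoc, ← Finset.sum_div]
        exact div_eq_zero_iff.2 (.inl this.symm)
      · simp [P366M.pd_zero_of_ev (o x l)]
    have n1 : (n - 1 : ℝ) ≠ 0 := by
      have : (3 : ℝ) ≤ n := by exact_mod_cast hE.n3
      linarith
    have ms : IsClosed {x | 0 ≤ Z.D.F x} := isClosed_le continuous_const hF.cont
    simp only [b, P366K.dm, Pi.zero_apply, mul_zero, Finset.sum_const_zero, sub_zero, zero_div, add_zero,
      mul_eq_zero, n1, false_or, sub_eq_zero] at a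
    rw [setIntegral_eq_of_subset_of_forall_diff_eq_zero ms.measurableSet
      (s := e.symm '' (e.symm ⁻¹' {x | 0 ≤ Z.D.F x})) (by rintro _ ⟨y, hy, rfl⟩; exact hy) fun x hx => ?_,
      P366M.integral_dens_image he _ (ms.preimage (P366M.cont_symm he)).measurableSet] at a
    · refine a.trans (integral_congr_ae (.of_forall fun y => ?_))
      have d := P366M.dot_rep he (fun j x => ∑ a, Z.D.K x j a * P366M.gr Z.D.g (zx e u) a x) Z.X y
      simp only [P366M.lower_rep he, ← P366M.gr_rep he Z.D.g (hU.diff _), loc_zx he] at d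
      simp only [P366K3.kx, ← P366M.lap_rep hg he (hU.c2 _), loc_zx he, mul_comm (Z.X _ _), ← d,
        mul_comm (repV e Z.X _ y)]
      rfl
    · have l : x ∉ e.source := fun l => hx.2 ⟨e x, by simpa [loc, e.left_inv l] using hx.1,
        e.left_inv l⟩
      simp [P366K3.kx, P366M.gr, P366M.pd_zero_of_ev (o x l), P366M.lap_congr (o x l),
        P366M.lap_const]
  · rw [← integral_sub (i1 u k1 k2) (i1 φ hφ fun y => image_eq_zero_of_notMem_tsupport), mul_comm]
    rw [← Real.norm_eq_abs]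
    refine norm_integral_le_of_norm_le_const (.of_forall fun w => ?_)
    by_cases k : π w ∈ e.source
    · simpa only [zx, indicator_of_mem k, Real.norm_eq_abs] using k3 _
    · simpa [zx, indicator_of_notMem k] using (abs_nonneg _).trans (k3 0)

end Vale.Agent.P366SB
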