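import Vale.Agent.P366SB.Sl
import Vale.Agent.P366DV.Defs

/-!
# P366SB: from isotropic to areal coordinates
-/

open Filter Topology Set
open scoped ContDiff
open Vale.Agent.P366.Stmt Vale.Agent.T4 Vale.Agent.P366Z
open Vale.Agent.P366DV (uu)

noncomputable section

namespace Vale.Agent.P366SB

variable {n : ℕ} {m : ℝ} {z : E n}

/-- the factor -/
def fa (m : ℝ) (z : E n) : ℝ := (1 + uu m z) ^ (2 / ((n : ℝ) - 2))

/-- the areal coordinates -/
def ar (m : ℝ) (z : E n) : E n := fa m z • z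

theorem p_pos (hn : 3 ≤ n) : (0 : ℝ) < n - 2 := by
  have : (3 : ℝ) ≤ n := by exact_mod_cast hn
  linarith

theorem stF_rpow (hn : 3 ≤ n) (m : ℝ) (z : E n) : stF m z = 1 - 2 * m / ‖z‖ ^ ((n : ℝ) - 2) := by
  rw [stF, len, ← Real.rpow_natCast, Nat.cast_sub (by omega)]
  rfl

theorem ne_of (hn : 3 ≤ n) (hm : 0 < m) (hz : m / 2 < ‖z‖ ^ ((n : ℝ) - 2)) : z ≠ 0 := by
  rintro rfl
  rw [norm_zero, Real.zero_rpow (p_pos hn).ne'] at hz
  linarith

theorem uu_pos (hm : 0 < m) (hz : m / 2 < ‖z‖ ^ ((n : ℝ) - 2)) : 0 < uu m z :=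
  div_pos hm (by linarith)

theorem uu_lt (hm : 0 < m) (hz : m / 2 < ‖z‖ ^ ((n : ℝ) - 2)) : uu m z < 1 :=
  (div_lt_one (by linarith)).2 (by linarith)

theorem fa_pos (h : 0 < uu m z) : 0 < fa m z := Real.rpow_pos_of_pos (by linarith) _

theorem fa_rpow (hn : 3 ≤ n) (h : 0 < uu m z) : fa m z ^ ((n : ℝ) - 2) = (1 + uu m z) ^ 2 := by
  rw [fa, ← Real.rpow_mul (by linarith), div_mul_cancel₀ _ (p_pos hn).ne', Real.rpow_two]

theorem fa_sq (h : 0 < uu m z) : fa m z ^ 2 = (1 + uu m z) ^ (4 / ((n : ℝ) - 2)) := by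
  rw [fa, ← Real.rpow_two, ← Real.rpow_mul (by linarith)]
  congr 1
  ring

theorem norm_ar (h : 0 < uu m z) : ‖ar m z‖ = fa m z * ‖z‖ := by
  rw [ar, norm_smul, Real.norm_eq_abs, abs_of_pos (fa_pos h)]

theorem ar_rpow (hn : 3 ≤ n) (h : 0 < uu m z) :
    ‖ar m z‖ ^ ((n : ℝ) - 2) = (1 + uu m z) ^ 2 * ‖z‖ ^ ((n : ℝ) - 2) := by
  rw [norm_ar h, Real.mul_rpow (fa_pos h).le (norm_nonneg _), fa_rpow hn h]

theorem stF_ar (hn : 3 ≤ n) (hm : 0 < m) (hz : m / 2 < ‖z‖ ^ ((n : ℝ) - 2)) :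
    stF m (ar m z) = ((1 - uu m z) / (1 + uu m z)) ^ 2 := by
  have h := uu_pos hm hz
  rw [stF_rpow hn, ar_rpow hn h]
  have h1 : 0 < ‖z‖ ^ ((n : ℝ) - 2) := by linarith
  have h2 : m = 2 * ‖z‖ ^ ((n : ℝ) - 2) * uu m z := by
    unfold uu
    field_simp
  generalize uu m z = u at *
  rw [h2]
  field_simp
  ring

theorem cd_uu (m : ℝ) (hz : z ≠ 0) : ContDiffAt ℝ ∞ (uu m) z :=
  contDiffAt_const.div (contDiffAt_const.mul ((contDiffAt_norm ℝ hz).rpow_const_of_ne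
    (norm_ne_zero_iff.2 hz))) (mul_pos two_pos (Real.rpow_pos_of_pos (norm_pos_iff.2 hz) _)).ne'

theorem cd_fa (hz : z ≠ 0) (h : 0 < uu m z) : ContDiffAt ℝ ∞ (fa m) z :=
  (contDiffAt_const.add (cd_uu m hz)).rpow_const_of_ne (by linarith)

theorem cd_ar (hz : z ≠ 0) (h : 0 < uu m z) : ContDiffAt ℝ ∞ (ar m) z :=
  (cd_fa hz h).smul contDiffAt_id

theorem bij_ar (hn : 3 ≤ n) (hm : 0 < m) : BijOn (ar m) {z : E n | m / 2 < ‖z‖ ^ ((n : ℝ) - 2)}
    {y | 0 < len y ∧ 0 < stF m y} := by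
  refine ⟨fun z hz => ⟨?_, ?_⟩, fun z hz z' hz' h => ?_, fun Y hY => ?_⟩
  · rw [len, norm_ar (uu_pos hm hz)]
    exact mul_pos (fa_pos (uu_pos hm hz)) (norm_pos_iff.2 (ne_of hn hm hz))
  · rw [stF_ar hn hm hz]
    exact pow_pos (div_pos (sub_pos.2 (uu_lt hm hz)) (by linarith [uu_pos hm hz])) 2
  · have h1 := ar_rpow hn (uu_pos hm hz)
    rw [h, ar_rpow hn (uu_pos hm hz')] at h1
    have h2 : ‖z‖ ^ ((n : ℝ) - 2) = ‖z'‖ ^ ((n : ℝ) - 2) := by
      rw [mem_ofPred_eq] at hz hz'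
      unfold uu at h1
      generalize ‖z‖ ^ ((n : ℝ) - 2) = s at *
      generalize ‖z'‖ ^ ((n : ℝ) - 2) = s' at *
      have s0 : 0 < s := by linarith
      have s1 : 0 < s' := by linarith
      field_simp at h1
      have k : (s - s') * (4 * s * s' - m ^ 2) = 0 := by linarith
      rcases mul_eq_zero.1 k with l | l
      · linarith
      · nlinarith
    have h3 : fa m z = fa m z' := by simp only [fa, uu, h2]
    rw [ar, ar, h3] at h
    exact smul_right_injective _ (fa_pos (uu_pos hm hz')).ne' h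
  · obtain ⟨y0, y1⟩ := hY
    rw [stF_rpow hn] at y1
    have r0 : 0 < ‖Y‖ ^ ((n : ℝ) - 2) := Real.rpow_pos_of_pos y0 _
    have r1 : 2 * m < ‖Y‖ ^ ((n : ℝ) - 2) := (div_lt_one r0).1 (by linarith)
    obtain ⟨s, s0, s1⟩ : ∃ s, m / 2 < s ∧ (s + m / 2) ^ 2 = ‖Y‖ ^ ((n : ℝ) - 2) * s := by
      generalize ‖Y‖ ^ ((n : ℝ) - 2) = R at *
      have k := Real.sq_sqrt (show 0 ≤ (R - m) ^ 2 - m ^ 2 by nlinarith)
      have k' := Real.sqrt_nonneg ((R - m) ^ 2 - m ^ 2)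
      exact ⟨(R - m + √((R - m) ^ 2 - m ^ 2)) / 2, by linarith, by nlinarith⟩
    have s2 : 0 < s := by linarith
    have u0 : 0 < 1 + m / (2 * s) := by positivity
    have a0 : 0 < (1 + m / (2 * s)) ^ (2 / ((n : ℝ) - 2)) := Real.rpow_pos_of_pos u0 _
    have e : ‖((1 + m / (2 * s)) ^ (2 / ((n : ℝ) - 2)))⁻¹ • Y‖ ^ ((n : ℝ) - 2) = s := by
      rw [norm_smul, Real.norm_eq_abs, abs_of_pos (inv_pos.2 a0),
        Real.mul_rpow (inv_pos.2 a0).le (norm_nonneg _), Real.inv_rpow a0.le,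
        ← Real.rpow_mul u0.le, div_mul_cancel₀ _ (p_pos hn).ne', Real.rpow_two]
      field_simp
      nlinarith
    refine ⟨((1 + m / (2 * s)) ^ (2 / ((n : ℝ) - 2)))⁻¹ • Y, by rwa [mem_ofPred_eq, e], ?_⟩
    rw [ar, fa, uu, e, smul_smul, mul_inv_cancel₀ a0.ne', one_smul]

theorem pd_fa (hn : 3 ≤ n) (hz : z ≠ 0) (h : 0 < uu m z) (k : Fin n) :
    pd k (fa m) z = -(fa m z * (2 * uu m z / (1 + uu m z)) * z k / ‖z‖ ^ 2) := by
  have h0 := norm_pos_iff.2 hz
  have d0 : DifferentiableAt ℝ (fun y : E n => ‖y‖) z :=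
    (contDiffAt_norm ℝ (n := 1) hz).differentiableAt (by simp)
  have s0 : 0 < ‖z‖ ^ ((n : ℝ) - 2) := Real.rpow_pos_of_pos h0 _
  have d1 : DifferentiableAt ℝ (fun y : E n => ‖y‖ ^ ((n : ℝ) - 2)) z :=
    d0.rpow_const (Or.inl h0.ne')
  have e1 : pd k (uu m) z = -((n - 2) * uu m z * z k / ‖z‖ ^ 2) := by
    unfold uu
    rw [pd_div (differentiableAt_const _) (d1.const_mul 2) (by positivity), pd_const, pd_const_mul,
      pd_rpow d0 h0.ne', pd_norm hz, Real.rpow_sub_one h0.ne']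
    field_simp
    ring
  have d2 := (cd_uu m hz).differentiableAt (by simp)
  have u0 : 1 + uu m z ≠ 0 := by linarith
  unfold fa
  rw [pd_rpow (d2.const_add 1) u0, pd_const_add, e1, Real.rpow_sub_one u0]
  have := (p_pos hn).ne'
  field_simp

/-- the Schwarzschild–Tangherlini metric in isotropic coordinates -/
theorem Q_ar (hn : 3 ≤ n) (hm : 0 < m) {y : E n → E n} {t : E n → ℝ} {x : E n}
    (hy : DifferentiableAt ℝ y x) (hz : m / 2 < ‖y x‖ ^ ((n : ℝ) - 2))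
    {Φ : Fin (n + 1) → E n → ℝ} (h0 : Φ 0 = t) (h1 : ∀ k : Fin n, Φ k.succ = fun v => ar m (y v) k)
    (i j : Fin n) : Q (tang m (toPt Φ x)) (fun a => pd i (Φ a) x) (fun a => pd j (Φ a) x) =
      -((1 - uu m (y x)) / (1 + uu m (y x))) ^ 2 * (pd i t x * pd j t x) +
        (1 + uu m (y x)) ^ (4 / ((n : ℝ) - 2)) *
          ∑ k, pd i (fun v => y v k) x * pd j (fun v => y v k) x := by
  have z0 := ne_of hn hm hz
  have u0 := uu_pos hm hz
  have u1 := uu_lt hm hz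
  have r0 := norm_pos_iff.2 z0
  have a0 := fa_pos u0
  have sp : spc (toPt Φ x) = ar m (y x) := by
    ext k
    simp only [spc, toPt, h1]
  have df := (cd_fa z0 u0).differentiableAt (by simp)
  obtain ⟨s, hs⟩ : ∃ s : Fin n → ℝ, ∀ i, s i = ∑ l, y x l * pd i (fun v => y v l) x :=
    ⟨_, fun _ => rfl⟩
  obtain ⟨c, hc⟩ : ∃ c, c = 2 * uu m (y x) / (1 + uu m (y x)) / ‖y x‖ ^ 2 := ⟨_, rfl⟩
  have e1 : ∀ i k, pd i (fun v => ar m (y v) k) x =
      fa m (y x) * (pd i (fun v => y v k) x - c * s i * y x k) := fun i k => by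
    rw [show (fun v => ar m (y v) k) = fun v => fa m (y v) * y v k from rfl,
      pd_mul (f := fun v => fa m (y v)) (df.comp x hy) (P366M.diff_coord hy k), P366M.pd_chain df hy]
    simp only [pd_fa hn z0 u0, P366M.jac]
    rw [show ∑ l, pd i (fun v => y v l) x * -(fa m (y x) * (2 * uu m (y x) / (1 + uu m (y x))) *
      y x l / ‖y x‖ ^ 2) = -(fa m (y x) * c * s i) by
        rw [hs, Finset.mul_sum, ← Finset.sum_neg_distrib]
        exact Finset.sum_congr rfl fun l _ => by rw [hc]; ring]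
    ring
  have e2 : ∑ k, y x k * y x k = ‖y x‖ ^ 2 := by
    rw [norm_sq_eq]
    exact Finset.sum_congr rfl fun k _ => by ring
  have e3 : ∀ i, ∑ k, y x k * (pd i (fun v => y v k) x - c * s i * y x k) =
      s i * (1 - c * ‖y x‖ ^ 2) := fun i => by
    simp only [mul_sub, Finset.sum_sub_distrib]
    rw [← e2, Finset.mul_sum, Finset.mul_sum, mul_one, ← hs]
    congr 1
    exact Finset.sum_congr rfl fun k _ => by ring
  have e4 : ∑ k, (pd i (fun v => y v k) x - c * s i * y x k) *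
      (pd j (fun v => y v k) x - c * s j * y x k) =
      ∑ k, pd i (fun v => y v k) x * pd j (fun v => y v k) x - 2 * c * s i * s j +
        c ^ 2 * s i * s j * ‖y x‖ ^ 2 := by
    rw [← e2, Finset.mul_sum, show 2 * c * s i * s j =
      ∑ k, (c * s j * (y x k * pd i (fun v => y v k) x) +
        c * s i * (y x k * pd j (fun v => y v k) x)) by
          rw [Finset.sum_add_distrib, ← Finset.mul_sum, ← Finset.mul_sum, ← hs, ← hs]
          ring, ← Finset.sum_sub_distrib, ← Finset.sum_add_distrib]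
    exact Finset.sum_congr rfl fun k _ => by ring
  simp only [Q, Fin.sum_univ_succ, tang_00, tang_0s, tang_s0, tang_ss, zero_mul,
    Finset.sum_const_zero, add_zero, zero_add, h0, h1, e1, sp, add_mul, Finset.sum_add_distrib,
    ite_mul, one_mul, Finset.sum_ite_eq, Finset.mem_univ, if_true]
  have e5 : ∑ a, ∑ b, wf n m (len (ar m (y x))) * (ar m (y x) a * ar m (y x) b) *
      (fa m (y x) * (pd i (fun v => y v a) x - c * s i * y x a)) *
      (fa m (y x) * (pd j (fun v => y v b) x - c * s j * y x b)) =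
      wf n m (len (ar m (y x))) * fa m (y x) ^ 4 * (s i * (1 - c * ‖y x‖ ^ 2)) *
        (s j * (1 - c * ‖y x‖ ^ 2)) := by
    rw [← e3, ← e3, mul_assoc, Finset.sum_mul_sum, Finset.mul_sum]
    refine Finset.sum_congr rfl fun a _ => ?_
    rw [Finset.mul_sum]
    refine Finset.sum_congr rfl fun b _ => ?_
    simp only [ar, PiLp.smul_apply, smul_eq_mul]
    ring
  have e6 : ∑ a, fa m (y x) * (pd i (fun v => y v a) x - c * s i * y x a) *
      (fa m (y x) * (pd j (fun v => y v a) x - c * s j * y x a)) = fa m (y x) ^ 2 *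
      ∑ k, (pd i (fun v => y v k) x - c * s i * y x k) *
        (pd j (fun v => y v k) x - c * s j * y x k) := by
    rw [Finset.mul_sum]
    exact Finset.sum_congr rfl fun k _ => by ring
  rw [e5, e6, e4, wf, ← stF_eq, stF_ar hn hm hz, len, norm_ar u0, ← fa_sq u0, hc]
  have : 1 - uu m (y x) ≠ 0 := by linarith
  field_simp
  ring

end Vale.Agent.P366SB
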