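import Vale.Agent.P366IV.Step2
import Vale.Agent.P366IV.Defs3
import Vale.Agent.P366CU.Cur
import Vale.Agent.P366MM.Lb
import Vale.Agent.P366M.Apx

/-!
# P366SB: admissible curves on the manifold and the frame in a chart
-/

set_option linter.all false

open Set Filter Topology Metric
open scoped ContDiff RealInnerProductSpace
open Vale.Agent.P366 Vale.Agent.P366M Vale.Agent.P366IV
open Vale.Agent.P366.Stmt (E)
open Vale.Agent.P366F (Dat)
open Vale.Agent.P366MM (Ins cpt_ins)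
open Vale.Agent.P354YQ (JB)

noncomputable section

namespace Vale.Agent.P366SB

variable {n : ℕ} {M : Type} [Mfe n M] {Z : Dat n M} {e : Ch n M} {ρ τ t a b η : ℝ} {φ : M → ℝ}
  {x y v : E n} {D : Set M} {B : Set (E n)} {c : ℝ → M}

/-- the Hamiltonian on the manifold -/
def Hh (Z : Dat n M) (φ : M → ℝ) (x : M) : ℝ :=
  Z.N x * gn Z.D.g φ x - ∑ i, pd i φ x * Z.X i x

/-- the gradient in a chart -/
def gv (u : E n → ℝ) (y : E n) : E n := WithLp.toLp 2 fun i => Stmt.pd i u y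

/-- admissible curves, reachable points -/
abbrev AD (Z : Dat n M) (ρ : ℝ) := Adm (Ins Z.D ρ) {φ | Smooth φ} (Hh Z)
abbrev RL (Z : Dat n M) (ρ : ℝ) := Rl (Ins Z.D ρ) {φ | Smooth φ} (Hh Z)
abbrev RS (Z : Dat n M) (ρ : ℝ) := Rs (Ins Z.D ρ) {φ | Smooth φ} (Hh Z)

/-- the defect of the velocity `q.2` at `q.1` -/
def Qv (Z : Dat n M) (e : Ch n M) (q : E n × E n) : ℝ := Z.Nc e q.1 ^ 2 -
  ∑ i, ∑ j, Z.g e q.1 i j * (q.2 i + Z.Xc e i q.1) * (q.2 j + Z.Xc e j q.1)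

theorem hh_loc (he : e ∈ At M) (hφ : Smooth φ) (y : E n) :
    Hh Z φ (e.symm y) = Hm (Z.g e) (Z.Nc e) (Z.Xc e) (y, gv (loc e φ) y) := by
  rw [Hh, dot_loc he (hφ.diff _), ← gn_rep he _ (hφ.diff _)]
  simp only [Hm, mul_comm (Z.Xc e _ y)]
  rfl

theorem qv_zero (he : e ∈ At M) (y : E n) : Qv Z e (y, 0) = Z.lam (e.symm y) := by
  simp only [Qv, PiLp.zero_apply, zero_add, quad_rep he]
  rfl

theorem contOn_of_loc {f : M → ℝ} {s : Set M}
    (h : ∀ e ∈ At M, ContinuousOn (loc e f) (e.symm ⁻¹' s)) : ContinuousOn f s := fun x hx => by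
  have a : ContinuousWithinAt (fun z => loc (ch x) f (ch x z)) (s ∩ (ch x).source) x :=
    ContinuousWithinAt.comp (f := ch x) (h _ (ch_mem x) (pt x) (by simpa using hx))
      ((ch x).continuousAt (mem_ch x)).continuousWithinAt fun z hz => by
        simpa [(ch x).left_inv hz.2] using hz.1
  exact (a.congr (fun z hz => by simp [loc, (ch x).left_inv hz.2])
    (by simp [loc, (ch x).left_inv (mem_ch x)])).mono_of_mem_nhdsWithin
      (inter_mem_nhdsWithin s (chart_source_mem_nhds (E n) x))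

theorem cont_qv (hZ : Z.Ok) (he : e ∈ At M) : ContinuousOn (Qv Z e) (Z.Om e ×ˢ univ) := by
  have a := (hZ.lipN e he).continuousOn.comp (continuousOn_fst (s := Z.Om e ×ˢ (univ : Set (E n))))
    fun q hq => hq.1
  have b : ∀ i, ContinuousOn (fun q : E n × E n => q.2 i + Z.Xc e i q.1) (Z.Om e ×ˢ univ) := fun i =>
    (by fun_prop : Continuous fun q : E n × E n => q.2 i).continuousOn.add
      ((hZ.lipX e he i).continuousOn.comp continuousOn_fst fun q hq => hq.1)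
  exact (a.pow 2).sub (continuousOn_finsetSum _ fun i _ => continuousOn_finsetSum _ fun j _ =>
    (((((Z.D.met.rep he).sm i j).cont.comp continuous_fst).continuousOn.mul (b i)).mul (b j)))

theorem le_hm (hH : HAM) (hZ : Z.Ok) (he : e ∈ At M) (hy : y ∈ Z.Om e) (h : 0 ≤ Qv Z e (y, v))
    (p : E n) : ⟪p, v⟫ ≤ Hm (Z.g e) (Z.Nc e) (Z.Xc e) (y, p) :=
  (hH n _ (Z.K e) _ _ (Z.D.met.rep he) (Z.D.smK e he)).2.1 y p v (hZ.nn _ hy) (sub_nonneg.1 h)

theorem hyp1 (hH : HAM) (hZ : Z.Ok) (ρ : ℝ) : ∀ φ ∈ {φ : M → ℝ | Smooth φ}, Continuous φ ∧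
    ContinuousOn (Hh Z φ) (Ins Z.D ρ) ∧ ∀ x ∈ Ins Z.D ρ, 0 ≤ Hh Z φ x := fun φ hφ => by
  have hφ : Smooth φ := hφ
  refine ⟨hφ.cont, ContinuousOn.mono (s := {x | 0 ≤ Z.D.F x}) (contOn_of_loc fun e he => ?_)
    fun x hx => hx.1, fun x hx => ?_⟩
  · have : loc e (Hh Z φ) = fun y => Z.Nc e y * loc e (gn Z.D.g φ) y -
        ∑ i, Stmt.pd i (loc e φ) y * Z.Xc e i y := funext fun y => by
      rw [← dot_loc he (hφ.diff _)]; rfl
    rw [this]
    exact ((hZ.lipN e he).continuousOn.mul (cont_loc he (Z.D.met.cont_gn hφ.one)).continuousOn).sub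
      (continuousOn_finsetSum _ fun i _ => ((hφ.lc he).pd i).cont.continuousOn.mul
        (hZ.lipX e he i).continuousOn)
  · have hy : pt x ∈ Z.Om (ch x) := by simpa using hx.1
    have := le_hm hH hZ (ch_mem x) hy (v := 0) (by rw [qv_zero (ch_mem x)]; exact hZ.le _ hy)
      (gv (loc (ch x) φ) (pt x))
    rwa [← hh_loc (ch_mem x) hφ, symm_pt, inner_zero_right] at this

theorem hyp2 (C : Set M) : ∀ x ∈ C, ∀ ε > (0 : ℝ), ∃ φ ∈ {φ : M → ℝ | Smooth φ}, φ x = 0 ∧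
    ∀ y ∈ C, ε ≤ dist y x → 1 ≤ φ y := fun x _ ε hε => by
  obtain ⟨χ, a1, -, a2, -, a3⟩ := exists_cut (isCompact_singleton (x := x)) isOpen_ball
    (singleton_subset_iff.2 (mem_ball_self hε))
  refine ⟨fun y => 1 - χ y, CD.sub cd_const a1, by simp [(a3 x rfl).eq_of_nhds], fun y _ h => ?_⟩
  simp [image_eq_zero_of_notMem_tsupport fun k => h.not_gt (a2 k)]

/-- **SEG** -/
theorem seg (hH : HAM) (hZ : Z.Ok) (he : e ∈ At M) (ht : 0 ≤ t)
    (h : ∀ s ∈ Icc 0 t, e.symm (y + s • v) ∈ Ins Z.D ρ ∧ 0 ≤ Qv Z e (y + s • v, v)) :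
    RL Z ρ (e.symm y) (e.symm (y + t • v)) t := by
  refine ⟨ht, fun s => e.symm (y + s • v), ⟨((cont_symm he).comp (by fun_prop)).continuousOn,
    fun s m => (h s m).1, fun φ hφ s s' k k1 k2 k3 k4 => ?_⟩, by simp, rfl⟩
  have hφ : Smooth φ := hφ
  have d : ∀ r : ℝ, HasDerivAt (fun r : ℝ => φ (e.symm (y + r • v)))
      ⟪gv (loc e φ) (y + r • v), v⟫ r := fun r => by
    have := ((hφ.lc he).diff (y + r • v)).hasFDerivAt.comp_hasDerivAt r
      (((hasDerivAt_id' r).smul_const v).const_add y)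
    refine this.congr_deriv ?_
    rw [one_smul, P366Z.fderiv_eq_sum ((hφ.lc he).diff _)]
    simp [gv, PiLp.inner_apply]
  refine (convex_Icc s s').image_sub_le_mul_sub_of_deriv_le (fun r _ => (d r).continuousAt.continuousWithinAt)
    (fun r _ => (d r).differentiableAt.differentiableWithinAt) (fun r m => ?_) s ⟨le_rfl, k2⟩ s'
    ⟨k2, le_rfl⟩ k2
  have m := interior_subset m
  have l := h r ⟨k1.trans m.1, m.2.trans k3⟩
  rw [(d r).deriv]
  exact (le_hm hH hZ he l.1.1 l.2 _).trans ((hh_loc he hφ _).symm.trans_le (k4 r m))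

theorem seg' (hH : HAM) (hZ : Z.Ok) (he : e ∈ At M) (ht : 0 < t) {O : Set (E n)} (hO : Convex ℝ O)
    (h : ∀ y ∈ O, e.symm y ∈ Ins Z.D ρ ∧ 0 ≤ Qv Z e (y, v)) (h1 : y ∈ O) (h2 : y + t • v ∈ O) :
    RL Z ρ (e.symm y) (e.symm (y + t • v)) t := seg hH hZ he ht.le fun s m => h _ (by
  have := hO.add_smul_mem h1 h2 (t := s / t) ⟨div_nonneg m.1 ht.le, (div_le_one ht).2 m.2⟩
  rwa [smul_smul, div_mul_cancel₀ _ ht.ne'] at this)

theorem near (hZ : Z.Ok) (he : e ∈ At M) (hx : e.symm x ∈ Z.U) (hρ : ‖px (e.symm x)‖ < ρ)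
    (h : 0 < Qv Z e (x, v)) : ∃ r > (0 : ℝ), ∀ y ∈ ball x r, ∀ w ∈ ball v r,
      e.symm y ∈ Ins Z.D ρ ∧ 0 ≤ Qv Z e (y, w) := by
  have a : Z.Om e ∈ 𝓝 x := mem_of_superset ((ev_iff he).1 (hZ.op.mem_nhds hx))
    fun y hy => (hZ.sub _ hy).le
  have b := ((cont_qv hZ he).continuousAt (x := (x, v)) (prod_mem_nhds a univ_mem)).eventually
    (lt_mem_nhds h)
  obtain ⟨r, r0, k⟩ := Metric.eventually_nhds_iff.1 (b.and (continuousAt_fst.eventually
    (((ev_iff he).1 (ev_px_lt hρ)).and a)))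
  exact ⟨r, r0, fun y hy w hw =>
    have l := k (y := (y, w)) (max_lt hy hw)
    ⟨⟨l.2.2, l.2.1.le⟩, l.1.le⟩⟩

theorem rs_mono (hH : HAM) (hZ : Z.Ok) {s t : ℝ} (h : s ≤ t) : RS Z ρ D s ⊆ RS Z ρ D t :=
  fun x ⟨y, hy, k⟩ => ⟨y, hy, add_sub_cancel s t ▸ P366CU.rl_trans k
    ((P366CU.cur M _ _ _ (cpt_ins _ _) (hyp1 hH hZ ρ) (hyp2 _)).1 y (P366CU.rl_mem k).2 _
      (sub_nonneg.2 h))⟩

theorem rs_back {x y : M} {s t : ℝ} (h : RL Z ρ x y s) (k : y ∈ RS Z ρ D t) :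
    x ∈ RS Z ρ D (s + t) := let ⟨z, hz, l⟩ := k; ⟨z, hz, P366CU.rl_trans h l⟩

/-- **the frame in a chart** -/
theorem fr_of (hH : HAM) (hK : KID) (hZ : Z.Ok) (hB : Z.Bnd) (hN : Z.Ncc) (he : e ∈ At M)
    (hD : IsClosed D) (hτ : ∀ t < τ, ∀ x ∈ RS Z ρ D t, x ∉ Z.Uᶜ) (cB : IsCompact B)
    (bρ : ∀ y ∈ B, ‖px (e.symm y)‖ < ρ) : ∃ C, Fr (Z.g e) (Z.K e) (Z.Nc e) (Z.Xc e)
      (fun x y t => RL Z ρ (e.symm x) (e.symm y) t) (fun t => e.symm ⁻¹' RS Z ρ D t)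
      (e.symm ⁻¹' Z.U) B τ C := by
  obtain ⟨c1, c2, c3, c4⟩ := P366CU.cur M _ _ _ (cpt_ins Z.D ρ) (hyp1 hH hZ ρ) (hyp2 _)
  have hg := Z.D.met.rep he
  have cs := cont_symm he
  have kd := hK n M Z ∅ hZ hN e he
  choose A hA using hB e he B
  refine ⟨∑ k ∈ Finset.range 4, |A k cB|, hg, Z.D.smK e he, rep_sy Z.D.syK e,
    ⟨hZ.op.preimage cs, fun x y z => c2 _ _ _, c3.preimage (f := fun q : E n × E n × ℝ =>
      (e.symm q.1, e.symm q.2.1, q.2.2)) (by fun_prop), fun x y s t => rs_back,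
      fun t => ((c4 D ∅ hD isClosed_empty).1 t).preimage cs,
      fun s t h => preimage_mono (rs_mono hH hZ h), fun t h x hx => not_not.1 (hτ t h _ hx)⟩,
    cB, kd, fun x m l => ?_, fun x l => hZ.nn _ (hZ.sub _ l).le,
    fun x m l => c1 _ ⟨(hZ.sub _ l).le, (bρ x m).le⟩ 0 le_rfl, fun x m l p p0 κ κ0 => ?_⟩
  · have : ∀ i ≤ 3, A i cB ≤ ∑ k ∈ Finset.range 4, |A k cB| := fun i hi => (le_abs_self _).trans
      (Finset.single_le_sum (f := fun k => |A k cB|) (fun _ _ => abs_nonneg _)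
        (Finset.mem_range.2 (by omega)))
    exact ⟨⟨(kd x l).sN, fun i hi => (hA i cB x m l).1.trans (this i hi)⟩, fun j =>
      ⟨(kd x l).sX j, fun i hi => ((hA i cB x m l).2 j).trans (this i hi)⟩⟩
  rcases (hZ.nn _ (hZ.sub _ l).le).eq_or_lt with k | k
  · have a := hZ.le _ (hZ.sub _ l).le
    rw [← qv_zero he] at a
    have k : Z.Nc e x = 0 := k.symm
    have b : (fun i => Z.Xc e i x) = 0 := by
      by_contra j
      have := hg.g_pos x j
      simp only [Qv, k, PiLp.zero_apply, zero_add] at a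
      linarith
    refine ⟨0, ?_, ?_⟩
    · have : Vv (Z.g e) (Z.Nc e) (Z.Xc e) x p = 0 := by
        ext i
        simp [Vv, k, congrFun b i]
      simpa [this] using κ0.le
    · filter_upwards [tendsto_fst.eventually ((ev_iff he).1 ((ev_px_lt (bρ x m)).and
        (hZ.op.mem_nhds l))), tendsto_snd.eventually self_mem_nhdsWithin] with q q1 q2
      simpa using c1 _ ⟨(hZ.sub _ q1.2).le, q1.1.le⟩ _ (le_of_lt q2)
  · have k : 0 < Z.Nc e x := k
    obtain ⟨w, hw⟩ : ∃ w : E n, ∀ i, w i = Z.Nc e x * nu (Z.g e) x p i :=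
      ⟨WithLp.toLp 2 _, fun _ => rfl⟩
    obtain ⟨δ, d1, d2⟩ : ∃ δ : ℝ, δ * ‖w‖ ≤ κ ∧ δ ∈ Ioo 0 1 :=
      (((small tendsto_id ‖w‖ κ0).filter_mono nhdsWithin_le_nhds).and
        (Ioo_mem_nhdsGT one_pos)).exists
    have u := ((hH n _ (Z.K e) (Z.Nc e) (Z.Xc e) hg (Z.D.smK e he)).1 x p p0).2.1
    obtain ⟨r, r0, hr⟩ := near hZ he l (bρ x m)
      (v := Vv (Z.g e) (Z.Nc e) (Z.Xc e) x p - δ • w) (by
        have : ∀ i, (Vv (Z.g e) (Z.Nc e) (Z.Xc e) x p - δ • w) i + Z.Xc e i x =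
            (1 - δ) * Z.Nc e x * nu (Z.g e) x p i := fun i => by
          simp only [Vv, PiLp.sub_apply, PiLp.smul_apply, hw, smul_eq_mul]; ring
        have t : ∀ i j, Z.g e x i j * ((1 - δ) * Z.Nc e x * nu (Z.g e) x p i) *
            ((1 - δ) * Z.Nc e x * nu (Z.g e) x p j) = ((1 - δ) * Z.Nc e x) ^ 2 *
              (Z.g e x i j * nu (Z.g e) x p i * nu (Z.g e) x p j) := fun i j => by ring
        simp only [Qv, this, t, ← Finset.mul_sum, u]
        nlinarith [mul_pos (mul_pos d2.1 (sub_pos.2 (d2.2.trans one_lt_two))) (pow_pos k 2)])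
    refine ⟨Vv (Z.g e) (Z.Nc e) (Z.Xc e) x p - δ • w, ?_, ?_⟩
    · rwa [sub_sub_cancel_left, norm_neg, norm_smul, Real.norm_of_nonneg d2.1.le]
    generalize Vv (Z.g e) (Z.Nc e) (Z.Xc e) x p - δ • w = v at hr
    have t : Tendsto (fun q : E n × ℝ => q.1 + q.2 • v) (𝓝 x ×ˢ 𝓝[>] 0) (𝓝 x) := by
      simpa using tendsto_fst.add (((tendsto_snd (f := 𝓝 x) (g := 𝓝[>] (0 : ℝ))).mono_right
        (nhdsWithin_le_nhds (a := (0 : ℝ)))).smul_const v)
    filter_upwards [tendsto_fst.eventually (ball_mem_nhds x r0), t.eventually (ball_mem_nhds x r0),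
      tendsto_snd.eventually self_mem_nhdsWithin] with q q1 q2 q3
    exact seg' hH hZ he q3 (convex_ball x r) (fun y hy => hr y hy v (mem_ball_self r0)) q1 q2

/-- **a piece of the minimizer in a chart** -/
theorem cv_of (he : e ∈ At M) (hA : AD Z ρ c 0 τ)
    (hm : ∀ s ∈ Icc 0 τ, ∀ t < τ - s, c s ∉ RS Z ρ D t) (a0 : 0 ≤ a) (b0 : b ≤ τ) (η0 : 0 < η)
    (cB : IsCompact B) (hs : ∀ s ∈ Icc a b, c s ∈ e.source ∧ closedBall (e (c s)) η ⊆ B) :
    Cv (Z.g e) (Z.Nc e) (Z.Xc e) (fun t => e.symm ⁻¹' RS Z ρ D t) B τ (fun s => e (c s)) a b η := by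
  have ss := Icc_subset_Icc a0 b0
  refine ⟨a0, η0, e.continuousOn.comp (hA.cont.mono ss) fun s m => (hs s m).1,
    fun s m => (hs s m).2, fun p s s' h k1 k2 k3 k4 => ?_, fun s m t k l => hm s (ss m) t k
      (by rwa [mem_preimage, e.left_inv (hs s m).1] at l)⟩
  obtain ⟨R, hR⟩ := cB.isBounded.subset_ball_lt 0 0
  obtain ⟨ψ, hψ⟩ : ∃ ψ : E n → ℝ, ψ = fun y => P366Z.cut R y * ⟪p, y⟫ := ⟨_, rfl⟩
  have s1 : Smooth (zx e ψ) := cd_zx le_rfl he (isCompact_closedBall 0 (2 * R)) (fun y hy => by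
    simp only [hψ, P366Z.cut_zero hR.1 (not_le.1 (mem_closedBall_zero_iff.not.1 hy)).le, zero_mul])
    (hψ ▸ (P366Z.sm_cut R).mul (contDiff_const.inner ℝ contDiff_id))
  have ev : ∀ r ∈ Icc a b, ψ =ᶠ[𝓝 (e (c r))] fun y => ⟪p, y⟫ := fun r m =>
    Eventually.mono (isOpen_ball.mem_nhds (hR.2 ((hs r m).2 (mem_closedBall_self η0.le))))
      fun y hy => by simp only [hψ, P366Z.cut_one (mem_ball_zero_iff.1 hy).le, one_mul]
  have va : ∀ r ∈ Icc a b, zx e ψ (c r) = ⟪p, e (c r)⟫ := fun r m => by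
    rw [zx, indicator_of_mem (hs r m).1, (ev r m).eq_of_nhds]
  have := hA.le _ s1 s s' h (a0.trans k1) k2 (k3.trans b0) fun r m => by
    have m' : r ∈ Icc a b := ⟨k1.trans m.1, m.2.trans k3⟩
    rw [← e.left_inv (hs r m').1, hh_loc he s1, loc_zx he]
    refine le_of_eq_of_le (congrArg (fun z => Hm _ _ _ (e (c r), z)) ?_) (k4 r m)
    ext i
    simp only [gv, P366Z.pd_congr (ev r m')]
    exact (P366Z.pd_of_hasFDerivAt (f := fun y => ⟪p, y⟫) (innerSL ℝ p).hasFDerivAt i).trans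
      (by simp [EuclideanSpace.inner_single_right])
  rwa [va s' ⟨k1.trans k2, k3⟩, va s ⟨k1, k2.trans k3⟩, ← inner_sub_right] at this

end Vale.Agent.P366SB
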