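import Vale.Agent.P366Z.Calc
import Mathlib.MeasureTheory.Integral.CurveIntegral.Poincare
import Mathlib.Analysis.Normed.Module.Connected

/-!
# P366SB: locally exact forms on the exterior of a ball are exact
-/

open Filter Topology Set Metric
open scoped ContDiff
open Vale.Agent.P366.Stmt

noncomputable section

namespace Vale.Agent.P366SB

section V

variable {V : Type} [NormedAddCommGroup V] [NormedSpace ℝ V] {η : V → V →L[ℝ] ℝ} {s : Set V}

/-- locally exact forms -/
def Lx (η : V → V →L[ℝ] ℝ) (s : Set V) : Prop :=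
  ∀ z ∈ s, ∃ τ : V → ℝ, ContDiffAt ℝ 2 τ z ∧ η =ᶠ[𝓝 z] fderiv ℝ τ

theorem star_prim [CompleteSpace V] {a : V} (hs : IsOpen s) (ha : StarConvex ℝ a s) (h : Lx η s) :
    ∃ f, ∀ b ∈ s, HasFDerivAt f (η b) b := by
  refine ⟨fun b => ∫ᶜ x in .segment a b, η x, fun b hb => ?_⟩
  have h0 : IsCompact (segment ℝ a b) := by
    rw [segment_eq_image]
    exact isCompact_Icc.image (by fun_prop)
  obtain ⟨δ, hδ, h2⟩ := h0.exists_thickening_subset_open hs (ha.segment_subset hb)
  have h4 := self_subset_thickening hδ _ (right_mem_segment ℝ a b)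
  refine (Convex.hasFDerivWithinAt_curveIntegral_segment_of_hasFDerivWithinAt_symmetric
    (dω := fderiv ℝ η) ((convex_segment a b).thickening δ) (fun x hx => ?_) (fun x hx u _ v _ => ?_)
    (self_subset_thickening hδ _ (left_mem_segment ℝ a b)) h4).hasFDerivAt
    (isOpen_thickening.mem_nhds h4)
  · obtain ⟨τ, t1, t2⟩ := h x (h2 hx)
    exact (((t1.fderiv_right (m := 1) (by norm_num)).differentiableAt
      (by norm_num)).congr_of_eventuallyEq t2).hasFDerivAt.hasFDerivWithinAt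
  · obtain ⟨τ, t1, t2⟩ := h x (h2 hx)
    rw [t2.fderiv_eq]
    exact (t1.isSymmSndFDerivAt (by simp)).eq _ _

/-- a closed ray -/
def ray (e : V) : Set V := {z | ∃ c : ℝ, 0 ≤ c ∧ z = c • e}

theorem closed_ray {e : V} (he : e ≠ 0) : IsClosed (ray e) := by
  have h := (isClosedEmbedding_smul_left (𝕜 := ℝ) he).isClosedMap _ (isClosed_Ici (a := (0 : ℝ)))
  rwa [show (fun c : ℝ => c • e) '' Ici 0 = ray e from
    Set.ext fun z => exists_congr fun c => and_congr Iff.rfl eq_comm] at h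

theorem star_ray {e : V} (he : e ≠ 0) : StarConvex ℝ (-e) (ray e)ᶜ := by
  rintro z hz a b ha hb hab ⟨c, hc, h⟩
  rcases hb.eq_or_lt with rfl | hb
  · have h1 : (c + a) • e = 0 := by
      rw [add_smul, ← h]
      simp
    rcases smul_eq_zero.1 h1 with k | k
    · linarith
    · exact he k
  · refine hz ⟨(c + a) / b, by positivity, ?_⟩
    have h1 : b • z = (c + a) • e := by
      rw [add_smul, ← h]
      simp
    rw [div_eq_inv_mul, mul_smul, ← h1, smul_smul, inv_mul_cancel₀ hb.ne', one_smul]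

theorem punct_prim [FiniteDimensional ℝ V] (hn : 3 ≤ Module.finrank ℝ V) (h : Lx η {0}ᶜ) :
    ∃ f, ∀ b ≠ 0, HasFDerivAt f (η b) b := by
  have : CompleteSpace V := FiniteDimensional.complete ℝ V
  have : Nontrivial V := Module.nontrivial_of_finrank_pos (R := ℝ) (by omega)
  obtain ⟨e, he⟩ := exists_ne (0 : V)
  have he' : -e ≠ 0 := neg_ne_zero.2 he
  have h0 : ∀ v : V, (ray v)ᶜ ⊆ {0}ᶜ := fun v => compl_subset_compl.2 (by
    rintro _ rfl
    exact ⟨0, le_rfl, by simp⟩)
  obtain ⟨f, hf⟩ := star_prim (closed_ray he).isOpen_compl (star_ray he)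
    fun z hz => h z (h0 _ hz)
  obtain ⟨g, hg⟩ := star_prim (closed_ray he').isOpen_compl (star_ray he')
    fun z hz => h z (h0 _ hz)
  have h1 : (ray e)ᶜ ∩ (ray (-e))ᶜ = ((ℝ ∙ e : Submodule ℝ V) : Set V)ᶜ := by
    rw [← compl_union]
    congr 1
    ext z
    simp only [mem_union, SetLike.mem_coe, Submodule.mem_span_singleton]
    constructor
    · rintro (⟨c, -, rfl⟩ | ⟨c, -, rfl⟩)
      · exact ⟨c, rfl⟩
      · exact ⟨-c, by simp⟩
    · rintro ⟨c, rfl⟩
      rcases le_total 0 c with k | k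
      · exact Or.inl ⟨c, k, rfl⟩
      · exact Or.inr ⟨-c, by linarith, by simp⟩
  have h2 : IsPreconnected ((ray e)ᶜ ∩ (ray (-e))ᶜ) := by
    rw [h1]
    refine (isConnected_compl_of_one_lt_codim ?_).isPreconnected
    have k := Submodule.finrank_quotient_add_finrank (ℝ ∙ e)
    rw [finrank_span_singleton he] at k
    rw [← Module.finrank_eq_rank]
    exact_mod_cast (by omega : 1 < Module.finrank ℝ (V ⧸ (ℝ ∙ e)))
  have h3 := (closed_ray he).isOpen_compl.inter (closed_ray he').isOpen_compl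
  obtain ⟨c, hc⟩ := h3.exists_eq_add_of_fderiv_eq (𝕜 := ℝ) h2
    (fun z hz => (hf z hz.1).differentiableAt.differentiableWithinAt)
    (fun z hz => (hg z hz.2).differentiableAt.differentiableWithinAt)
    fun z hz => by rw [(hf z hz.1).fderiv, (hg z hz.2).fderiv]
  classical
  refine ⟨fun z => if z ∈ ray e then g z + c else f z, fun b hb => ?_⟩
  by_cases k : b ∈ ray e
  · have k' : b ∉ ray (-e) := by
      rintro ⟨d, hd, k2⟩
      obtain ⟨d', hd', k3⟩ := k
      have k4 : (d' + d) • e = 0 := by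
        rw [add_smul, ← k3, k2]
        simp
      have k5 : d' = 0 := by
        rcases smul_eq_zero.1 k4 with l | l
        · linarith
        · exact absurd l he
      exact hb (by rw [k3, k5, zero_smul])
    refine ((hg b k').add_const c).congr_of_eventuallyEq ?_
    filter_upwards [(closed_ray he').isOpen_compl.mem_nhds k'] with z hz
    split_ifs with l
    · rfl
    · exact hc ⟨l, hz⟩
  · refine (hf b k).congr_of_eventuallyEq ?_
    filter_upwards [(closed_ray he).isOpen_compl.mem_nhds k] with z hz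
    exact if_neg hz

end V

variable {n : ℕ}

/-- the radial shift -/
def sh (ρ : ℝ) (z : E n) : E n := (1 + ρ / ‖z‖) • z

theorem cd_sh (ρ : ℝ) {z : E n} (hz : z ≠ 0) : ContDiffAt ℝ ∞ (sh ρ) z :=
  (contDiffAt_const.add (contDiffAt_const.div (contDiffAt_norm ℝ hz)
    (norm_ne_zero_iff.2 hz))).smul contDiffAt_id

theorem norm_sh {ρ : ℝ} {z : E n} (hz : z ≠ 0) (h : 0 ≤ ‖z‖ + ρ) : ‖sh ρ z‖ = ‖z‖ + ρ := by
  have h0 := norm_pos_iff.2 hz
  have h1 : 1 + ρ / ‖z‖ = (‖z‖ + ρ) / ‖z‖ := by field_simp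
  rw [sh, norm_smul, h1, Real.norm_eq_abs, abs_of_nonneg (div_nonneg h h0.le)]
  field_simp

theorem sh_sh {ρ : ℝ} (hρ : 0 ≤ ρ) {z : E n} (hz : ρ < ‖z‖) : sh ρ (sh (-ρ) z) = z := by
  have h0 : z ≠ 0 := norm_pos_iff.1 (hρ.trans_lt hz)
  have h1 := norm_pos_iff.2 h0
  have h2 : 0 < ‖z‖ + -ρ := by linarith
  rw [sh, norm_sh h0 h2.le, sh, smul_smul, show (1 + ρ / (‖z‖ + -ρ)) * (1 + -ρ / ‖z‖) = 1 by
    field_simp
    ring, one_smul]

end Vale.Agent.P366SB
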