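import Vale.Agent.P366F.Stmt
import Vale.Agent.P366.T4.TangChr
import Vale.Agent.P366M.Basic

/-!
# P366SB: a graph over the static slices has the expected second fundamental form
-/

open Filter Topology Set
open scoped ContDiff
open Vale.Agent.P366.Stmt Vale.Agent.T4 Vale.Agent.P366Z Vale.Agent.P366N.St

noncomputable section

namespace Vale.Agent.P366SB

variable {n m : ℕ}

/-- a bilinear form -/
def Q (T : Fin m → Fin m → ℝ) (u v : Fin m → ℝ) : ℝ := ∑ a, ∑ b, T a b * u a * v b

/-- a trilinear form -/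
def D (T : Fin m → Fin m → Fin m → ℝ) (u v w : Fin m → ℝ) : ℝ := ∑ c, u c * Q (T c) v w

theorem Q_sy {T : Fin m → Fin m → ℝ} (h : ∀ a b, T a b = T b a) (u v : Fin m → ℝ) :
    Q T u v = Q T v u := by
  unfold Q
  rw [Finset.sum_comm]
  exact Finset.sum_congr rfl fun a _ => Finset.sum_congr rfl fun b _ => by rw [h]; ring

theorem D_sy {T : Fin m → Fin m → Fin m → ℝ} (h : ∀ c a b, T c a b = T c b a)
    (u v w : Fin m → ℝ) : D T u v w = D T u w v :=
  Finset.sum_congr rfl fun c _ => by rw [Q_sy (h c)]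

theorem Q_lin (T : Fin m → Fin m → ℝ) (u v : Fin m → ℝ) (X : Fin n → ℝ) (e : Fin n → Fin m → ℝ)
    (N : ℝ) : Q T (fun a => (u a - ∑ k, X k * e k a) / N) v =
      (Q T u v - ∑ k, X k * Q T (e k) v) / N := by
  unfold Q
  simp only [Finset.mul_sum]
  rw [Finset.sum_comm (f := fun k a => ∑ b, X k * (T a b * e k a * v b)), ← Finset.sum_sub_distrib,
    Finset.sum_div]
  refine Finset.sum_congr rfl fun a _ => ?_
  rw [Finset.sum_comm (f := fun k b => X k * (T a b * e k a * v b)), ← Finset.sum_sub_distrib,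
    Finset.sum_div]
  refine Finset.sum_congr rfl fun b _ => ?_
  rw [show ∑ k, X k * (T a b * e k a * v b) = T a b * (∑ k, X k * e k a) * v b by
    rw [Finset.mul_sum, Finset.sum_mul]
    exact Finset.sum_congr rfl fun k _ => by ring]
  ring

theorem pd_Q {T : Field m} {z : E n → E m} {u v : Fin m → E n → ℝ} {y : E n}
    (hT : ∀ a b, DifferentiableAt ℝ (fun w => T w a b) (z y)) (hz : DifferentiableAt ℝ z y)
    (hu : ∀ a, DifferentiableAt ℝ (u a) y) (hv : ∀ a, DifferentiableAt ℝ (v a) y) (i : Fin n) :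
    pd i (fun x => Q (T (z x)) (fun a => u a x) fun a => v a x) y =
      D (fun c a b => pd c (fun w => T w a b) (z y)) (fun c => pd i (fun x => z x c) y)
        (fun a => u a y) (fun a => v a y) +
      Q (T (z y)) (fun a => pd i (u a) y) (fun a => v a y) +
      Q (T (z y)) (fun a => u a y) fun a => pd i (v a) y := by
  have h1 : ∀ a b, DifferentiableAt ℝ (fun x => T (z x) a b) y := fun a b => (hT a b).comp y hz
  simp only [D, Q]
  rw [pd_sum _ fun a _ => DifferentiableAt.fun_sum fun b _ =>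
    ((h1 a b).fun_mul (hu a)).fun_mul (hv b)]
  simp only [Finset.mul_sum]
  rw [Finset.sum_comm (f := fun c a => ∑ b, pd i (fun x => z x c) y *
    (pd c (fun w => T w a b) (z y) * u a y * v b y)), ← Finset.sum_add_distrib,
    ← Finset.sum_add_distrib]
  refine Finset.sum_congr rfl fun a _ => ?_
  rw [pd_sum _ fun b _ => ((h1 a b).fun_mul (hu a)).fun_mul (hv b),
    Finset.sum_comm (f := fun c b => pd i (fun x => z x c) y *
    (pd c (fun w => T w a b) (z y) * u a y * v b y)), ← Finset.sum_add_distrib,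
    ← Finset.sum_add_distrib]
  refine Finset.sum_congr rfl fun b _ => ?_
  rw [pd_mul ((h1 a b).fun_mul (hu a)) (hv b), pd_mul (h1 a b) (hu a),
    P366M.pd_chain (f := fun w => T w a b) (hT a b) hz]
  simp only [P366M.jac]
  rw [show ∑ c, pd i (fun x => z x c) y * (pd c (fun w => T w a b) (z y) * u a y * v b y) =
    (∑ c, pd i (fun x => z x c) y * pd c (fun w => T w a b) (z y)) * u a y * v b y by
      rw [Finset.sum_mul, Finset.sum_mul]
      exact Finset.sum_congr rfl fun c _ => by ring]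
  ring

theorem cd_spc : ContDiff ℝ ∞ (spc : E (n + 1) → E n) :=
  contDiff_euclidean.2 fun i => contDiff_coord i.succ

theorem cd_stF (M : ℝ) {y : E n} (h0 : 0 < len y) : ContDiffAt ℝ ∞ (stF M) y :=
  contDiffAt_const.sub (contDiffAt_const.div
    ((contDiffAt_norm ℝ (norm_pos_iff.1 h0)).pow _) (pow_ne_zero _ h0.ne'))

theorem cd_tang (M : ℝ) {z : E (n + 1)} (h0 : 0 < len (spc z)) (hf : 0 < stF M (spc z))
    (a b : Fin (n + 1)) : ContDiffAt ℝ ∞ (fun w => tang M w a b) z := by
  have h1 : ContDiffAt ℝ ∞ (fun w : E (n + 1) => stF M (spc w)) z :=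
    (cd_stF M h0).comp z cd_spc.contDiffAt
  have h2 : ContDiffAt ℝ ∞ (fun w : E (n + 1) => len (spc w)) z :=
    (contDiffAt_norm ℝ (norm_pos_iff.1 h0)).comp z cd_spc.contDiffAt
  refine Fin.cases ?_ (fun i => ?_) a
  · refine Fin.cases ?_ (fun j => ?_) b
    · exact h1.neg
    · exact contDiffAt_const
  · refine Fin.cases ?_ (fun j => ?_) b
    · exact contDiffAt_const
    · exact contDiffAt_const.add (((contDiffAt_const.div h1 hf.ne').sub contDiffAt_const).mul
        (((contDiff_coord i.succ).contDiffAt.mul (contDiff_coord j.succ).contDiffAt).div (h2.pow 2)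
          (pow_ne_zero _ h0.ne')))

/-- the static Killing field -/
def xi (n : ℕ) : Fin (n + 1) → ℝ := Fin.cons 1 fun _ => 0

theorem Q_xi (M : ℝ) (z : E (n + 1)) (v : Fin (n + 1) → ℝ) :
    Q (tang M z) (xi n) v = -stF M (spc z) * v 0 := by
  simp [Q, xi, Fin.sum_univ_succ, tang_00, tang_0s]

theorem D_xi (M : ℝ) (z : E (n + 1)) (u v : Fin (n + 1) → ℝ) :
    D (dT n M z) (xi n) u v = 0 := by
  simp [D, Q, xi, Fin.sum_univ_succ, dT_0]

theorem Q_chr (M : ℝ) {z : E (n + 1)} (h0 : 0 < len (spc z)) (hf : 0 < stF M (spc z))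
    (u s v w : Fin (n + 1) → ℝ) :
    ∑ a, ∑ b, tang M z a b * u a * (s b + ∑ c, ∑ d, chr (tang M) b c d z * v c * w d) =
      Q (tang M z) u s + (D (dT n M z) v w u + D (dT n M z) w v u - D (dT n M z) u v w) / 2 := by
  have e1 : ∀ a, ∑ b, tang M z a b * u a * ∑ c, ∑ d, chr (tang M) b c d z * v c * w d =
      ∑ c, ∑ d, (v c * (dT n M z c d a * w d * u a) + w d * (dT n M z d c a * v c * u a) -
        u a * (dT n M z a c d * v c * w d)) / 2 := fun a => by
    simp only [Finset.mul_sum]
    rw [Finset.sum_comm]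
    refine Finset.sum_congr rfl fun c _ => ?_
    rw [Finset.sum_comm]
    refine Finset.sum_congr rfl fun d _ => ?_
    rw [show ∑ b, tang M z a b * u a * (chr (tang M) b c d z * v c * w d) =
      (∑ b, tang M z a b * chr (tang M) b c d z) * (u a * v c * w d) by
        rw [Finset.sum_mul]
        exact Finset.sum_congr rfl fun b _ => by ring, tang_chr M h0.ne' hf.ne']
    unfold dT
    ring
  simp only [mul_add, Finset.sum_add_distrib, e1]
  unfold D Q
  congr 1
  simp only [← Finset.sum_div, Finset.sum_sub_distrib, Finset.sum_add_distrib, Finset.mul_sum]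
  congr 3
  · rw [Finset.sum_comm]
    exact Finset.sum_congr rfl fun c _ => Finset.sum_comm
  · rw [Finset.sum_comm]
    refine (Finset.sum_congr rfl fun c _ => Finset.sum_comm).trans ?_
    exact Finset.sum_comm

/-- the point-wise criterion: `w = - f dt` is the shift, `N` the lapse -/
theorem sliceAt_of {M N : ℝ} {G L : Field n} {Φ : Fin (n + 1) → E n → ℝ} {w : Fin n → E n → ℝ}
    {y : E n} (hG : Met G) (hΦ : ∀ a, ContDiffAt ℝ 2 (Φ a) y) (h0 : 0 < len (spc (toPt Φ y)))
    (hf : 0 < stF M (spc (toPt Φ y)))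
    (eG : ∀ᶠ x in 𝓝 y, ∀ i j,
      G x i j = Q (tang M (toPt Φ x)) (fun a => pd i (Φ a) x) fun a => pd j (Φ a) x)
    (ew : ∀ᶠ x in 𝓝 y, ∀ j, w j x = -stF M (spc (toPt Φ x)) * pd j (Φ 0) x) (hN : 0 < N)
    (eN : N ^ 2 = stF M (spc (toPt Φ y)) + ∑ i, ∑ j, up G i j y * w i y * w j y)
    (eK : ∀ i j, 2 * N * L y i j =
      -(pd i (w j) y + pd j (w i) y - 2 * ∑ k, chr G k i j y * w k y)) :
    ∃ ν, SliceAt M G L Φ ν y := by
  set z := toPt Φ y with hz
  set e : Fin n → Fin (n + 1) → ℝ := fun i a => pd i (Φ a) y with he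
  set s : Fin n → Fin n → Fin (n + 1) → ℝ := fun i j a => pd i (pd j (Φ a)) y with hs
  set X : Fin n → ℝ := fun k => ∑ l, up G k l y * w l y with hX
  have sy := tang_symm M z
  have sd : ∀ c a b, dT n M z c a b = dT n M z c b a := fun c a b => by
    unfold dT
    simp only [tang_symm M _ a b]
  have ss : ∀ i j, s i j = s j i := fun i j => funext fun a => pd_comm (hΦ a) i j
  have dz : DifferentiableAt ℝ (toPt Φ) y := differentiableAt_euclidean.2 fun a => diff2 (hΦ a)
  have dt := fun a b => (cd_tang M h0 hf a b).differentiableAt (by simp)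
  have g0 : ∀ i j, G y i j = Q (tang M z) (e i) (e j) := eG.self_of_nhds
  have w0 : ∀ j, w j y = Q (tang M z) (xi n) (e j) := fun j => by
    rw [Q_xi]
    exact ew.self_of_nhds j
  have g1 : ∀ i j k, pd i (fun x => G x j k) y = D (dT n M z) (e i) (e j) (e k) +
      Q (tang M z) (s i j) (e k) + Q (tang M z) (e j) (s i k) := fun i j k => by
    rw [pd_congr (eG.mono fun x hx => hx j k) i]
    exact pd_Q dt dz (fun a => diffAt_pd (hΦ a) j) (fun a => diffAt_pd (hΦ a) k) i
  have w1 : ∀ i j, pd i (w j) y = D (dT n M z) (e i) (xi n) (e j) +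
      Q (tang M z) (xi n) (s i j) := fun i j => by
    rw [pd_congr (h := fun x => Q (tang M (toPt Φ x)) (fun a => xi n a) fun a => pd j (Φ a) x)
      (ew.mono fun x hx => (hx j).trans (Q_xi M _ fun a => pd j (Φ a) x).symm) i]
    refine (pd_Q (u := fun a _ => xi n a) dt dz (fun a => differentiableAt_const _)
      (fun a => diffAt_pd (hΦ a) j) i).trans ?_
    simp only [pd_const, Q, mul_zero, zero_mul, Finset.sum_const_zero, add_zero]
    rfl
  have x1 : ∀ j, ∑ k, X k * G y k j = w j y := fun j => by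
    simp only [hX, Finset.sum_mul]
    rw [Finset.sum_comm]
    rw [show w j y = ∑ l, (if j = l then 1 else 0) * w l y by simp]
    refine Finset.sum_congr rfl fun l _ => ?_
    rw [← hG.mul_up j l y, Finset.sum_mul]
    exact Finset.sum_congr rfl fun k _ => by rw [hG.sy y j k]; ring
  have x2 : ∑ k, X k * w k y = N ^ 2 - stF M (spc z) := by
    rw [eN, add_sub_cancel_left]
    refine Finset.sum_congr rfl fun k _ => ?_
    rw [hX, Finset.sum_mul]
    exact Finset.sum_congr rfl fun l _ => by ring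
  have x3 : ∀ i j, ∑ k, X k * ((pd i (fun x => G x j k) y + pd j (fun x => G x i k) y -
      pd k (fun x => G x i j) y) / 2) = ∑ k, chr G k i j y * w k y := fun i j => by
    simp only [hX, chr, Finset.sum_mul, Finset.sum_div]
    rw [Finset.sum_comm]
    exact Finset.sum_congr rfl fun k _ => Finset.sum_congr rfl fun l _ => by
      rw [hG.up_sy k l]; ring
  set ν : Fin (n + 1) → ℝ := fun a => (xi n a - ∑ k, X k * e k a) / N with hν
  have n1 : ∀ i, Q (tang M z) ν (e i) = 0 := fun i => by
    rw [hν, Q_lin, ← w0]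
    simp only [← g0, x1, sub_self, zero_div]
  have n0 : stF M (spc z) * ν 0 = N := by
    have : ∑ k, X k * w k y = -stF M (spc z) * ∑ k, X k * e k 0 := by
      rw [Finset.mul_sum]
      exact Finset.sum_congr rfl fun k _ => by rw [w0, Q_xi]; ring
    simp only [hν, xi, Fin.cons_zero]
    field_simp
    linarith
  refine ⟨ν, (pos_iff_pos_of_mul_pos (n0 ▸ hN)).1 hf, g0, ?_, n1, fun i j => ?_⟩
  · change Q (tang M z) ν ν = -1
    rw [show Q (tang M z) ν ν = Q (tang M z) (fun a => (xi n a - ∑ k, X k * e k a) / N) ν from rfl,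
      Q_lin, Q_xi]
    simp only [Q_sy sy _ ν, n1, mul_zero, Finset.sum_const_zero, sub_zero, neg_mul, n0]
    field_simp
  · have b1 : ∀ u : Fin (n + 1) → ℝ, ∑ a, ∑ b, tang M z a b * u a * (s i j b +
        ∑ c, ∑ d, chr (tang M) b c d z * e i c * e j d) = Q (tang M z) u fun b => s i j b +
        ∑ c, ∑ d, chr (tang M) b c d z * e i c * e j d := fun u => rfl
    change L y i j = -∑ a, ∑ b, tang M z a b * ν a * (s i j b +
        ∑ c, ∑ d, chr (tang M) b c d z * e i c * e j d)
    rw [b1, hν, Q_lin]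
    simp only [← b1, Q_chr M h0 hf]
    have b2 : ∀ k, Q (tang M z) (e k) (s i j) + (D (dT n M z) (e i) (e j) (e k) +
        D (dT n M z) (e j) (e i) (e k) - D (dT n M z) (e k) (e i) (e j)) / 2 =
        (pd i (fun x => G x j k) y + pd j (fun x => G x i k) y -
          pd k (fun x => G x i j) y) / 2 := fun k => by
      rw [g1, g1, g1, ss j i, ss k i, ss k j, Q_sy sy (s i j), Q_sy sy (s i k)]
      ring
    simp only [b2, x3, D_xi]
    have b3 := eK i j
    rw [w1, w1, ss j i, D_sy sd _ (xi n), D_sy sd _ (xi n)] at b3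
    field_simp
    linarith

end Vale.Agent.P366SB
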