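import Vale.Agent.P366M.Int

/-!
# P366SB: integration by parts on a domain for fields which are tangent to the boundary
-/

set_option linter.all false

open MeasureTheory Metric Filter Topology Set
open scoped ContDiff
open Vale.Agent.P366.Stmt Vale.Agent.P366Z

noncomputable section

namespace Vale.Agent.P366SB

variable {n : ℕ} {g : Field n} {F N G φ : E n → ℝ} {Y : Fin n → E n → ℝ}

/-- a locally Lipschitz function on a closed set has Lipschitz extensions from bounded parts -/
theorem ext_lip {s : Set (E n)} (hs : IsClosed s) (hN : LocallyLipschitzOn s N) {R : ℝ}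
    (hR : 0 < R) : ∃ N', Lip N' ∧ HasCompactSupport N' ∧ ∀ y ∈ s, ‖y‖ ≤ R → N' y = N y := by
  obtain ⟨K, hK⟩ := (hN.mono (inter_subset_left (t := closedBall 0 R))
    ).exists_lipschitzOnWith_of_compact ((isCompact_closedBall 0 R).inter_left hs)
  obtain ⟨f, hf, e⟩ := hK.extend_real
  have h1 : LocallyLipschitz fun y => cut R y * f y :=
    (contDiff_fst.mul contDiff_snd : ContDiff ℝ 1 fun p : ℝ × ℝ => p.1 * p.2).locallyLipschitz.comp
      ((ContDiff.of_le (sm_cut R) P366M.one_le_oo).locallyLipschitz.prodMk hf.locallyLipschitz)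
  exact ⟨fun y => cut R y * f y, P366M.ll_lip h1 (supp_cut hR).mul_right, (supp_cut hR).mul_right,
    fun y hy h => by simp only [cut_one h, one_mul, ← e ⟨hy, by simpa using h⟩]⟩

/-- `s * st' s` -/
def sg (s : ℝ) : ℝ := s * deriv Real.smoothTransition s

theorem sg_lo {s : ℝ} (h : s ≤ 0) : sg s = 0 :=
  mul_eq_zero_of_right _ (IsLocalMin.deriv_eq_zero (.of_forall fun t => by
    rw [Real.smoothTransition.zero_of_nonpos h]; exact Real.smoothTransition.nonneg t))

theorem sg_hi {s : ℝ} (h : 1 ≤ s) : sg s = 0 :=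
  mul_eq_zero_of_right _ (IsLocalMax.deriv_eq_zero (.of_forall fun t => by
    rw [Real.smoothTransition.one_of_one_le h]; exact Real.smoothTransition.le_one t))

theorem sg_cont : Continuous sg := continuous_id.mul
  ((Real.smoothTransition.contDiff (n := 1)).continuous_deriv le_rfl)

theorem sg_bd : ∃ C, ∀ s, ‖sg s‖ ≤ C := sg_cont.bounded_above_of_compact_support
  (HasCompactSupport.intro (isCompact_Icc (a := 0) (b := 1)) fun s hs => by
    rcases le_total s 0 with h | h
    · exact sg_lo h
    · exact sg_hi (not_lt.1 fun k => hs ⟨h, k.le⟩))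

theorem int_dot (hN : Lip N) (hc : HasCompactSupport N) (hY : ∀ i, Continuous (Y i))
    {f : E n → ℝ} (hf : Continuous f) : Integrable fun y => (∑ i, pd i N y * Y i y) * f y := by
  obtain ⟨R, -, e⟩ := out_of_supp hc
  simp only [Finset.sum_mul]
  exact integrable_finsetSum _ fun i _ => (hN.integrable_pd e ((hY i).mul hf) i).congr
    (.of_forall fun y => by simp only [Pi.mul_apply]; ring)

/-- **integration by parts on the domain** -/
theorem ibp_om (hg : Met g) (hF : Smooth F) (h0 : ∀ᵐ y, F y ≠ 0) (hN : Lip N)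
    (hc : HasCompactSupport N) (hY : ∀ i, Smooth (Y i)) (hG : Continuous G)
    (e : ∀ y, ∑ i, pd i F y * Y i y = F y * G y) :
    ∫ y in {y | 0 ≤ F y}, N y * dv g Y y * dens g y =
      -∫ y in {y | 0 ≤ F y}, (∑ i, pd i N y * Y i y) * dens g y := by
  have hd := hg.sm_dens.cont
  have i1 : Integrable fun y => N y * dv g Y y * dens g y :=
    ((hN.cont.mul (hg.sm_dv hY).cont).mul hd).integrable_of_hasCompactSupport
      hc.mul_right.mul_right
  have i2 := int_dot hN hc (fun i => (hY i).cont) hd
  have i3 : Integrable fun y => N y * G y * dens g y :=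
    ((hN.cont.mul hG).mul hd).integrable_of_hasCompactSupport hc.mul_right.mul_right
  have ms : MeasurableSet {y | 0 ≤ F y} := (isClosed_le continuous_const hF.cont).measurableSet
  obtain ⟨C, hC⟩ := sg_bd
  obtain ⟨H, hH⟩ : ∃ H : E n → ℝ, ∀ y, H y = N y * dv g Y y * dens g y +
      (∑ i, pd i N y * Y i y) * dens g y := ⟨_, fun _ => rfl⟩
  have i4 : Integrable H := funext hH ▸ i1.add i2
  have st : ∀ δ : ℝ, Smooth fun y => Real.smoothTransition (F y / δ) := fun δ =>
    Real.smoothTransition.contDiff.comp (hF.div_const δ)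
  have j1 : ∀ δ : ℝ, ∀ {f : E n → ℝ}, Integrable f →
      Integrable fun y => Real.smoothTransition (F y / δ) * f y := fun δ f hf =>
    hf.bdd_mul (c := 1) (st δ).cont.aestronglyMeasurable (.of_forall fun y =>
      (abs_of_nonneg (Real.smoothTransition.nonneg _)).trans_le (Real.smoothTransition.le_one _))
  have j2 : ∀ δ : ℝ, Integrable fun y => sg (F y / δ) * (N y * G y * dens g y) := fun δ =>
    i3.bdd_mul (c := C) (sg_cont.comp (hF.cont.div_const δ)).aestronglyMeasurable
      (.of_forall fun y => hC _)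
  have k : ∀ δ : ℝ, ∫ y, (Real.smoothTransition (F y / δ) * H y +
      sg (F y / δ) * (N y * G y * dens g y)) = 0 := fun δ => by
    have h1 := hg.ibp_dv hN hc (X := fun i y => Real.smoothTransition (F y / δ) * Y i y)
      fun i => ContDiff.of_le ((st δ).mul (hY i)) P366M.one_le_oo
    have h2 : ∀ y, N y * dv g (fun i y => Real.smoothTransition (F y / δ) * Y i y) y * dens g y =
        Real.smoothTransition (F y / δ) * (N y * dv g Y y * dens g y) +
          sg (F y / δ) * (N y * G y * dens g y) := fun y => by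
      rw [hg.dv_smul ((st δ).diff y) fun i => (hY i).diff y]
      have : ∀ i, pd i (fun y => Real.smoothTransition (F y / δ)) y =
          deriv Real.smoothTransition (F y / δ) * δ⁻¹ * pd i F y := fun i => by
        rw [pd_comp (f := fun y => F y / δ) ((Real.smoothTransition.contDiff (n := 1)
          ).differentiable one_ne_zero _).hasDerivAt (Smooth.diff (hF.div_const δ) y)]
        simp only [div_eq_mul_inv, pd_mul_const]
        ring
      simp only [this, mul_assoc _ (pd _ F y), ← Finset.mul_sum, e, sg]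
      ring
    have h3 : ∀ y, (∑ i, pd i N y * (Real.smoothTransition (F y / δ) * Y i y)) * dens g y =
        Real.smoothTransition (F y / δ) * ((∑ i, pd i N y * Y i y) * dens g y) := fun y => by
      simp only [mul_left_comm _ (Real.smoothTransition _), ← Finset.mul_sum, mul_assoc]
    simp only [h2, h3] at h1
    rw [integral_add (j1 δ i1) (j2 δ)] at h1
    rw [integral_add (j1 δ i4) (j2 δ)]
    simp only [hH, mul_add]
    rw [integral_add (j1 δ i1) (j1 δ i2)]
    linarith
  have l : Tendsto (fun δ : ℝ => ∫ y, (Real.smoothTransition (F y / δ) * H y +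
      sg (F y / δ) * (N y * G y * dens g y))) (𝓝[>] 0) (𝓝 (∫ y, {y | 0 ≤ F y}.indicator H y)) := by
    refine tendsto_integral_filter_of_dominated_convergence
      (fun y => ‖H y‖ + C * ‖N y * G y * dens g y‖)
      (.of_forall fun δ => ((j1 δ i4).add (j2 δ)).aestronglyMeasurable)
      (.of_forall fun δ => .of_forall fun y => (norm_add_le _ _).trans (add_le_add ?_ ?_))
      (i4.norm.add (i3.norm.const_mul C)) (h0.mono fun y hy => tendsto_const_nhds.congr' ?_)
    · rw [norm_mul]
      exact mul_le_of_le_one_left (norm_nonneg _) ((abs_of_nonneg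
        (Real.smoothTransition.nonneg _)).trans_le (Real.smoothTransition.le_one _))
    · rw [norm_mul]
      exact mul_le_mul_of_nonneg_right (hC _) (norm_nonneg _)
    rcases hy.lt_or_gt with h | h
    · filter_upwards [self_mem_nhdsWithin] with δ (hδ : 0 < δ)
      have := (div_neg_of_neg_of_pos h hδ).le
      rw [indicator_of_notMem (by simpa using h), sg_lo this,
        Real.smoothTransition.zero_of_nonpos this]
      ring
    · filter_upwards [Ioo_mem_nhdsGT h] with δ hδ
      have := (one_le_div hδ.1).2 hδ.2.le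
      rw [indicator_of_mem (by simpa using h.le), sg_hi this,
        Real.smoothTransition.one_of_one_le this]
      ring
  simp only [k] at l
  have := tendsto_nhds_unique l tendsto_const_nhds
  rw [integral_indicator ms, funext hH, integral_add i1.integrableOn i2.integrableOn] at this
  linarith

/-! ### the approximation by functions whose normal derivative vanishes -/

/-- the profile -/
def bp (δ t : ℝ) : ℝ := t * δ ^ 2 / (δ ^ 2 + t ^ 2)

/-- the derivative of the profile -/
def bq (δ t : ℝ) : ℝ := δ ^ 2 * (δ ^ 2 - t ^ 2) / (δ ^ 2 + t ^ 2) ^ 2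

variable {δ : ℝ}

theorem bp_der (h : 0 < δ) (t : ℝ) : HasDerivAt (bp δ) (bq δ t) t := by
  have p : δ ^ 2 + t ^ 2 ≠ 0 := by positivity
  refine (((hasDerivAt_id' t).mul_const (δ ^ 2)).fun_div
    ((hasDerivAt_pow 2 t).const_add (δ ^ 2)) p).congr_deriv ?_
  unfold bq
  congr 1
  simp only [Nat.cast_ofNat, Nat.add_one_sub_one, pow_one]
  ring

theorem bp_sm (h : 0 < δ) : ContDiff ℝ ∞ (bp δ) :=
  (contDiff_id.mul contDiff_const).div (contDiff_const.add (contDiff_id.pow 2))
    fun t => by positivity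

theorem bq_cont (h : 0 < δ) : Continuous (bq δ) :=
  (continuous_const.mul (continuous_const.sub (continuous_id.pow 2))).div
    ((continuous_const.add (continuous_id.pow 2)).pow 2) fun t => by positivity

theorem bp_le (h : 0 < δ) (t : ℝ) : |bp δ t| ≤ δ := by
  rw [bp, abs_div, abs_mul, abs_of_pos (by positivity : 0 < δ ^ 2 + t ^ 2), abs_of_pos (pow_pos h 2),
    div_le_iff₀ (by positivity), ← sq_abs t]
  nlinarith [mul_nonneg h.le (sq_nonneg (|t| - δ)), mul_nonneg (abs_nonneg t) (pow_pos h 2).le]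

theorem bq_le (h : 0 < δ) (t : ℝ) : |bq δ t| ≤ 1 := by
  rw [bq, abs_div, abs_of_pos (by positivity : 0 < (δ ^ 2 + t ^ 2) ^ 2),
    div_le_one (by positivity), abs_le]
  constructor <;> nlinarith [sq_nonneg δ, sq_nonneg t, mul_nonneg (sq_nonneg δ) (sq_nonneg t)]

theorem bp_lim (t : ℝ) : Tendsto (fun δ => bp δ t) (𝓝[>] 0) (𝓝 0) :=
  squeeze_zero_norm' (eventually_mem_nhdsWithin.mono fun δ h => bp_le h t)
    (tendsto_id.mono_left nhdsWithin_le_nhds)

theorem bq_lim {t : ℝ} (h : t ≠ 0) : Tendsto (fun δ => bq δ t) (𝓝[>] 0) (𝓝 0) := by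
  have : ContinuousAt (fun δ => bq δ t) 0 :=
    ((continuousAt_id.pow 2).mul ((continuousAt_id.pow 2).sub continuousAt_const)).div
      (((continuousAt_id.pow 2).add continuousAt_const).pow 2) (by simpa using h)
  simpa [bq] using this.tendsto.mono_left nhdsWithin_le_nhds

theorem exists_apx (hg : Met g) (hF : Smooth F) (hr : ∀ y, F y = 0 → ∃ i, pd i F y ≠ 0)
    (hφ : Smooth φ) : ∃ χ, Smooth χ ∧ (∀ y ∉ tsupport φ, χ y = 0) ∧ ∀ δ, 0 < δ →
      (∀ i y, gr g (fun y => φ y - bp δ (F y) * χ y) i y =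
        gr g φ i y - bq δ (F y) * (χ y * gr g F i y) - bp δ (F y) * gr g χ i y) ∧
      ∃ G, Continuous G ∧
        ∀ y, ∑ i, pd i F y * gr g (fun y => φ y - bp δ (F y) * χ y) i y = F y * G y := by
  have q : ∀ y, ip g F F y + F y ^ 2 ≠ 0 := fun y => by
    rcases eq_or_ne (F y) 0 with h | h
    · obtain ⟨i, hi⟩ := hr y h
      exact (add_pos_of_pos_of_nonneg (hg.up_pos y fun k => hi (congrFun k i)) (sq_nonneg _)).ne'
    · exact (add_pos_of_nonneg_of_pos (hg.ip_nonneg F y) (by positivity)).ne'
  obtain ⟨χ, e⟩ : ∃ χ : E n → ℝ, ∀ y, χ y = ip g F φ y / (ip g F F y + F y ^ 2) := ⟨_, fun _ => rfl⟩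
  have hχ : Smooth χ := funext e ▸ (hg.sm_ip hF hφ).div ((hg.sm_ip hF hF).add (hF.pow 2)) q
  refine ⟨χ, hχ, fun y hy => ?_, fun δ h => ?_⟩
  · rw [e, ip_congr EventuallyEq.rfl (notMem_tsupport_iff_eventuallyEq.1 hy)]
    exact div_eq_zero_iff.2 (.inl (ip_const_right 0))
  have a : ∀ i y, gr g (fun y => φ y - bp δ (F y) * χ y) i y =
      gr g φ i y - bq δ (F y) * (χ y * gr g F i y) - bp δ (F y) * gr g χ i y := fun i y => by
    have b : DifferentiableAt ℝ (fun y => bp δ (F y)) y := Smooth.diff ((bp_sm h).comp hF) y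
    simp only [gr, pd_sub (hφ.diff y) (b.fun_mul (hχ.diff y)), pd_mul b (hχ.diff y),
      pd_comp (bp_der h (F y)) (hF.diff y), Finset.mul_sum, ← Finset.sum_sub_distrib]
    exact Finset.sum_congr rfl fun j _ => by ring
  refine ⟨a, fun y => χ y * (ip g F F y * (F y * (3 * δ ^ 2 + F y ^ 2) / (δ ^ 2 + F y ^ 2) ^ 2) +
    F y) - δ ^ 2 / (δ ^ 2 + F y ^ 2) * ip g F χ y, ?_, fun y => ?_⟩
  · have c := hF.cont
    have p : ∀ y, δ ^ 2 + F y ^ 2 ≠ 0 := fun y => by positivity
    exact (hχ.cont.mul (((hg.sm_ip hF hF).cont.mul ((c.mul (continuous_const.add (c.pow 2))).div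
      ((continuous_const.add (c.pow 2)).pow 2) fun y => pow_ne_zero 2 (p y))).add c)).sub
      ((continuous_const.div (continuous_const.add (c.pow 2)) p).mul
        (hg.sm_ip hF hχ).cont)
  · have b : ip g F φ y = χ y * (ip g F F y + F y ^ 2) := by rw [e, div_mul_cancel₀ _ (q y)]
    have p : δ ^ 2 + F y ^ 2 ≠ 0 := by positivity
    simp only [a]
    simp only [mul_sub, Finset.sum_sub_distrib, mul_left_comm (pd _ F y), ← Finset.mul_sum,
      ← ip_eq_gr, b, bp, bq]
    field_simp
    ring

end Vale.Agent.P366SB
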